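import Vale.Agent.P225.Sphere.Maps
import Vale.Agent.P225.Seg.Levels

/-!
The operators of pull-backs on coefficient vectors: level by level orthogonal, and with weights
`mu ^ p` bounded by `2 ^ |p|`.
-/

namespace Vale.Agent.P225.Sphere

open scoped lp ENNReal Classical

noncomputable section

/-- The states of one level as a finite set. -/
def levSet (J : Fin 3) (L : ℕ × ℕ) : Finset St :=
  (Finset.univ : Finset (Fib J L)).map (Function.Embedding.subtype _)

theorem mem_levSet {J : Fin 3} {L : ℕ × ℕ} {i : St} : i ∈ levSet J L ↔ i.blk.level J = L := by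
  constructor
  · intro h
    obtain ⟨k, -, rfl⟩ := Finset.mem_map.1 h
    exact k.2
  · intro h
    exact Finset.mem_map.2 ⟨⟨i, h⟩, Finset.mem_univ _, rfl⟩

theorem level_le_mu (J : Fin 3) (V : Blk) :
    1 + ((V.level J).1 : ℝ) + (V.level J).2 ≤ V.mu := by
  have ha : (0 : ℝ) ≤ V.la := Nat.cast_nonneg _
  have hb : (0 : ℝ) ≤ V.lb := Nat.cast_nonneg _
  have hc : (0 : ℝ) ≤ V.lc := Nat.cast_nonneg _
  fin_cases J <;> simp [Blk.mu, Blk.level] <;> linarith

namespace Pullback

/-- The identity. -/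
def one : Pullback where
  g x := x
  τ := AlgHom.id ℂ Pol
  evN_τ _ _ := rfl
  integral _ := rfl

/-- Composition: first `T`, then `S`. -/
def trans (T S : Pullback) : Pullback where
  g x := S.g (T.g x)
  τ := T.τ.comp S.τ
  evN_τ p x := by
    show evN (T.τ (S.τ p)) x = _
    rw [T.evN_τ, S.evN_τ]
  integral p := by
    rw [← S.integral p, ← show ∫ x, evN (S.τ p) (T.g x) ∂haarN = ∫ x, evN p (S.g (T.g x)) ∂haarN from
      MeasureTheory.integral_congr_ae (Filter.Eventually.of_forall fun x => S.evN_τ p _), T.integral]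
    exact MeasureTheory.integral_congr_ae (Filter.Eventually.of_forall fun x => S.evN_τ p _)

theorem Carries.trans {T S : Pullback} {s s' s'' : Slot} (hT : T.Carries s' s'')
    (hS : S.Carries s s') : (T.trans S).Carries s s'' := fun p => by
  funext x
  show evN (T.τ (S.τ (s.triple.cas p))) x = _
  rw [T.evN_τ, congrFun (hS p) (T.g x), ← T.evN_τ, congrFun (hT (S.τ p)) x]
  rfl

theorem M_congr {T S : Pullback} (h : ∀ x, T.g x = S.g x) (j i : St) : T.M j i = S.M j i := by
  rw [M, M, cfQ, cfQ, ip_congr (p := Q j) rfl (show evN (T.τ (Q i)) = evN (S.τ (Q i)) from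
    funext fun x => by rw [T.evN_τ, S.evN_τ, h])]

theorem M_one (j i : St) : one.M j i = if j = i then 1 else 0 := by
  rw [M, cfQ]
  show (ip (Q j) (Q i)).re = _
  rw [ip_Q]
  split_ifs <;> simp

theorem M_trans (T S : Pullback) {i : St} {s : Finset St} (hs : ∀ k ∉ s, S.M k i = 0) (j : St) :
    (T.trans S).M j i = ∑ k ∈ s, T.M j k * S.M k i := by
  have e : evN ((T.trans S).τ (Q i)) = evN (∑ k ∈ s, (S.M k i : ℂ) • T.τ (Q k)) := by
    funext x
    show evN (T.τ (S.τ (Q i))) x = _
    rw [T.evN_τ, S.evN_τ, map_sum, Finset.sum_apply]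
    simp only [map_smul, Pi.smul_apply, smul_eq_mul]
    simp only [T.evN_τ]
    simp only [evN_apply, ← ofReal_Y]
    exact_mod_cast S.expand_on hs (T.g x)
  rw [M, cfQ, ip_congr (p := Q j) rfl e, ip_sum_right, Complex.re_sum]
  refine Finset.sum_congr rfl fun k _ => ?_
  rw [ip_smul_right, Complex.re_ofReal_mul, mul_comm]
  rfl

/-- The pull-back sends the levels of `J` to the same levels of `J'`. -/
def Moves (T : Pullback) (J J' : Fin 3) : Prop :=
  ∀ i j : St, T.M j i ≠ 0 → j.blk.level J' = i.blk.level J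

theorem moves_of_carries {T : Pullback} (J J' : Fin 3) (h0 : T.Carries (rSlot J) (rSlot J'))
    (h1 : T.Carries (rSlot (J + 1)) (rSlot (J' + 1))) : T.Moves J J' := by
  intro i j hne
  have e : ∀ r r', T.Carries (rSlot r) (rSlot r') → rLabel j.blk r' = rLabel i.blk r :=
    fun r r' h => by_contra fun e => hne (T.M_eq_zero h e)
  have e0 := e _ _ h0
  have e1 := e _ _ h1
  fin_cases J <;> fin_cases J' <;> exact Prod.ext e0 e1

theorem rightT_moves (h : N2) : (rightT h).Moves 0 0 :=
  moves_of_carries 0 0 (rightT_carries h 0) (rightT_carries h 1)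

theorem inv_moves (f : Fin 2) : (inv f).Moves 0 0 :=
  moves_of_carries 0 0 (inv_carries f 0) (inv_carries f 1)

theorem leftT_moves (h : N2) (J : Fin 3) : (leftT h).Moves J J :=
  moves_of_carries J J (leftT_carries h _) (leftT_carries h _)

theorem cyc_moves (J : Fin 3) : cyc.Moves J (J + 1) :=
  moves_of_carries J (J + 1) (cyc_carries J) (cyc_carries (J + 1))

theorem one_moves (J : Fin 3) : one.Moves J J := fun i j h => by
  rw [M_one] at h
  split_ifs at h with e
  · rw [e]
  · exact absurd rfl h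

theorem Moves.zero {T : Pullback} {J J' : Fin 3} (h : T.Moves J J') {i : St} {L : ℕ × ℕ}
    (hi : i.blk.level J = L) {j : St} (hj : j ∉ levSet J' L) : T.M j i = 0 :=
  by_contra fun hne => hj (mem_levSet.2 ((h i j hne).trans hi))

theorem Moves.trans {T S : Pullback} {J J' J'' : Fin 3} (hT : T.Moves J' J'') (hS : S.Moves J J') :
    (T.trans S).Moves J J'' := by
  intro i j hne
  rw [M_trans T S (fun k hk => hS.zero rfl hk) j] at hne
  obtain ⟨k, hk, hk'⟩ := Finset.exists_ne_zero_of_sum_ne_zero hne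
  exact (hT k j (left_ne_zero_of_mul hk')).trans (mem_levSet.1 hk)

/-- The weight of a state relative to its level at `J`. -/
def relW (J : Fin 3) (i : St) : ℝ :=
  i.blk.mu / (1 + ((i.blk.level J).1 : ℝ) + (i.blk.level J).2)

theorem one_le_relW (J : Fin 3) (i : St) : 1 ≤ relW J i := by
  rw [relW, one_le_div (by positivity)]
  exact level_le_mu J _

theorem relW_le_two (J : Fin 3) (i : St) : relW J i ≤ 2 := by
  rw [relW, div_le_iff₀ (by positivity)]
  exact Blk.mu_le_level J _

/-- The weighted kernel. -/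
def wM (T : Pullback) (p : ℤ) (j i : St) : ℝ := T.M j i * (j.blk.mu / i.blk.mu) ^ p

variable {T : Pullback} {J J' : Fin 3}

theorem wM_eq (h : T.Moves J J') (p : ℤ) (j i : St) :
    T.wM p j i = relW J' j ^ p * T.M j i * ((relW J i)⁻¹) ^ p := by
  by_cases hne : T.M j i = 0
  · simp [wM, hne]
  have hl := h i j hne
  have hpos : (0 : ℝ) < 1 + ((i.blk.level J).1 : ℝ) + (i.blk.level J).2 := by positivity
  have hi := Blk.one_le_mu i.blk
  rw [wM, mul_comm _ (T.M j i), mul_assoc, ← mul_zpow]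
  congr 2
  rw [relW, relW, hl]
  field_simp

/-- The kernel on one level. -/
def levApply (T : Pullback) (p : ℤ) (J : Fin 3) (L : ℕ × ℕ) (x : St → ℝ) (j : St) : ℝ :=
  ∑ i ∈ levSet J L, T.wM p j i * x i

theorem sum_sq_M (h : T.Moves J J') (L : ℕ × ℕ) (y : St → ℝ) :
    ∑ j ∈ levSet J' L, (∑ i ∈ levSet J L, T.M j i * y i) ^ 2 = ∑ i ∈ levSet J L, y i ^ 2 := by
  simp only [sq, Finset.sum_mul_sum]
  rw [Finset.sum_comm]
  refine Finset.sum_congr rfl fun i hi => ?_
  rw [Finset.sum_comm, Finset.sum_eq_single_of_mem i hi]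
  · rw [Finset.sum_congr rfl fun j _ => show T.M j i * y i * (T.M j i * y i) =
      T.M j i * T.M j i * (y i * y i) by ring, ← Finset.sum_mul,
      T.orth fun j hj => h.zero (mem_levSet.1 hi) hj]
    simp
  · intro k _ hk
    rw [Finset.sum_congr rfl fun j _ => show T.M j i * y i * (T.M j k * y k) =
      T.M j i * T.M j k * (y i * y k) by ring, ← Finset.sum_mul,
      T.orth fun j hj => h.zero (mem_levSet.1 hi) hj]
    simp [Ne.symm hk]

theorem sum_levApply_sq (h : T.Moves J J') (p : ℤ) (L : ℕ × ℕ) (x : St → ℝ) :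
    ∑ j ∈ levSet J' L, levApply T p J L x j ^ 2 ≤
      ((2 : ℝ) ^ p.natAbs) ^ 2 * ∑ i ∈ levSet J L, x i ^ 2 := by
  have hb : ∀ (K : Fin 3) (i : St), 0 < relW K i := fun K i =>
    lt_of_lt_of_le one_pos (one_le_relW K i)
  have e : ∀ j, levApply T p J L x j ^ 2 = (relW J' j ^ p) ^ 2 *
      (∑ i ∈ levSet J L, T.M j i * (((relW J i)⁻¹) ^ p * x i)) ^ 2 := fun j => by
    rw [← mul_pow, Finset.mul_sum, levApply]
    congr 1
    exact Finset.sum_congr rfl fun i _ => by rw [wM_eq h]; ring
  obtain ⟨n, rfl | rfl⟩ := p.eq_nat_or_neg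
  · simp only [Int.natAbs_natCast, zpow_natCast] at e ⊢
    refine (Finset.sum_le_sum fun j _ => (e j).le.trans (mul_le_mul_of_nonneg_right
      (pow_le_pow_left₀ (pow_nonneg (hb J' j).le _)
        (pow_le_pow_left₀ (hb J' j).le (relW_le_two J' j) n) 2) (sq_nonneg _))).trans ?_
    rw [← Finset.mul_sum, sum_sq_M h]
    refine mul_le_mul_of_nonneg_left (Finset.sum_le_sum fun i _ => ?_) (sq_nonneg _)
    rw [mul_pow]
    exact mul_le_of_le_one_left (sq_nonneg _) (pow_le_one₀ (pow_nonneg (inv_nonneg.2 (hb J i).le) _)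
      (pow_le_one₀ (inv_nonneg.2 (hb J i).le) (inv_le_one_of_one_le₀ (one_le_relW J i))))
  · simp only [Int.natAbs_neg, Int.natAbs_natCast, zpow_neg, zpow_natCast, inv_pow, inv_inv] at e ⊢
    refine (Finset.sum_le_sum fun j _ => (e j).le.trans (mul_le_of_le_one_left (sq_nonneg _)
      (inv_le_one_of_one_le₀ (one_le_pow₀ (one_le_pow₀ (one_le_relW J' j)))))).trans ?_
    rw [sum_sq_M h, Finset.mul_sum]
    refine Finset.sum_le_sum fun i _ => ?_
    rw [mul_pow]
    exact mul_le_mul_of_nonneg_right (pow_le_pow_left₀ (pow_nonneg (hb J i).le _)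
      (pow_le_pow_left₀ (hb J i).le (relW_le_two J i) n) 2) (sq_nonneg _)

theorem sum_levSet_le (J : Fin 3) (x : HSp) (s : Finset (ℕ × ℕ)) :
    ∑ L ∈ s, ∑ i ∈ levSet J L, x i ^ 2 ≤ ‖x‖ ^ 2 := by
  rw [← Finset.sum_biUnion]
  · refine (le_of_eq (Finset.sum_congr rfl fun i _ => ?_)).trans (sum_sq_le_lp x _)
    rw [Real.norm_eq_abs, sq_abs]
  · intro L _ L' _ hne
    rw [Function.onFun, Finset.disjoint_left]
    exact fun i h1 h2 => hne ((mem_levSet.1 h1).symm.trans (mem_levSet.1 h2))

theorem wOp_sum_sq (h : T.Moves J J') (p : ℤ) (x : HSp) (s : Finset St) :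
    ∑ j ∈ s, ‖levApply T p J (j.blk.level J') (⇑x) j‖ ^ 2 ≤
      ((2 : ℝ) ^ p.natAbs) ^ 2 * ‖x‖ ^ 2 := by
  simp only [Real.norm_eq_abs, sq_abs]
  calc ∑ j ∈ s, levApply T p J (j.blk.level J') (⇑x) j ^ 2
      ≤ ∑ L ∈ s.image (fun j => j.blk.level J'), ∑ j ∈ levSet J' L,
          levApply T p J L (⇑x) j ^ 2 := by
        rw [← Finset.sum_fiberwise_of_maps_to
          (fun j hj => Finset.mem_image_of_mem (fun j : St => j.blk.level J') hj)]
        refine Finset.sum_le_sum fun L _ => ?_
        refine (le_of_eq (Finset.sum_congr rfl fun j hj => by rw [(Finset.mem_filter.1 hj).2])).trans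
          (Finset.sum_le_sum_of_subset_of_nonneg
            (fun j hj => mem_levSet.2 (Finset.mem_filter.1 hj).2) fun _ _ _ => sq_nonneg _)
    _ ≤ ∑ L ∈ s.image (fun j => j.blk.level J'),
          ((2 : ℝ) ^ p.natAbs) ^ 2 * ∑ i ∈ levSet J L, x i ^ 2 :=
        Finset.sum_le_sum fun L _ => sum_levApply_sq h p L _
    _ ≤ _ := by
        rw [← Finset.mul_sum]
        exact mul_le_mul_of_nonneg_left (sum_levSet_le J x _) (sq_nonneg _)

/-- The operator of the pull-back with weights `mu ^ p`. -/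
def wOp (h : T.Moves J J') (p : ℤ) : HSp →L[ℝ] HSp :=
  LinearMap.mkContinuous
    { toFun := fun x => ⟨fun j => levApply T p J (j.blk.level J') (⇑x) j,
        memℓp_two (wOp_sum_sq h p x)⟩
      map_add' := fun x y => by
        ext j
        show levApply T p J _ (⇑(x + y)) j = levApply T p J _ (⇑x) j + levApply T p J _ (⇑y) j
        simp [levApply, mul_add, Finset.sum_add_distrib]
      map_smul' := fun r x => by
        ext j
        show levApply T p J _ (⇑(r • x)) j = r * levApply T p J _ (⇑x) j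
        simp [levApply, Finset.mul_sum, mul_left_comm] }
    ((2 : ℝ) ^ p.natAbs) fun x => norm_le_of_sum_sq (by positivity) fun s =>
      (wOp_sum_sq h p x s).trans_eq (mul_pow _ _ _).symm

theorem wOp_apply (h : T.Moves J J') (p : ℤ) (x : HSp) (j : St) :
    wOp h p x j = ∑ i ∈ levSet J (j.blk.level J'), T.M j i * (j.blk.mu / i.blk.mu) ^ p * x i := rfl

theorem norm_wOp_le (h : T.Moves J J') (p : ℤ) : ‖wOp h p‖ ≤ (2 : ℝ) ^ p.natAbs :=
  LinearMap.mkContinuous_norm_le _ (by positivity) _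

theorem wOp_comp {S : Pullback} {J'' : Fin 3} (hT : T.Moves J' J'') (hS : S.Moves J J')
    (p : ℤ) : (wOp hT p).comp (wOp hS p) = wOp (hT.trans hS) p := by
  refine ContinuousLinearMap.ext fun x => ?_
  ext j
  rw [ContinuousLinearMap.comp_apply, wOp_apply, wOp_apply]
  simp only [wOp_apply, Finset.mul_sum]
  rw [Finset.sum_congr rfl fun k hk => by rw [mem_levSet.1 hk], Finset.sum_comm]
  refine Finset.sum_congr rfl fun i hi => ?_
  rw [M_trans T S (fun k hk => hS.zero (mem_levSet.1 hi) hk) j, Finset.sum_mul, Finset.sum_mul]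
  refine Finset.sum_congr rfl fun k _ => ?_
  have h1 := Blk.one_le_mu i.blk
  have h2 := Blk.one_le_mu k.blk
  rw [show j.blk.mu / i.blk.mu = (j.blk.mu / k.blk.mu) * (k.blk.mu / i.blk.mu) by field_simp,
    mul_zpow]
  ring

theorem wOp_eq_one (h : T.Moves J J) (hg : ∀ x, T.g x = x) (p : ℤ) : wOp h p = 1 := by
  refine ContinuousLinearMap.ext fun x => ?_
  ext j
  rw [wOp_apply, Finset.sum_eq_single_of_mem j (mem_levSet.2 rfl)]
  · rw [M_congr (S := one) hg, M_one, if_pos rfl, one_mul,
      div_self (ne_of_gt (lt_of_lt_of_le one_pos (Blk.one_le_mu _))), one_zpow, one_mul]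
    rfl
  · intro i _ hi
    rw [M_congr (S := one) hg, M_one, if_neg (Ne.symm hi)]
    ring

/-- Maps inverse to each other give inverse operators. -/
theorem wOp_inverse {S : Pullback} (hT : T.Moves J' J) (hS : S.Moves J J') (p : ℤ)
    (hg : ∀ x, S.g (T.g x) = x) : (wOp hT p).comp (wOp hS p) = 1 := by
  rw [wOp_comp]
  exact wOp_eq_one _ hg p

/-- Without weights the operator is an isometry. -/
theorem norm_wOp_zero_apply (h : T.Moves J J') (x : HSp) : ‖wOp h 0 x‖ = ‖x‖ := by
  refine le_antisymm ?_ ?_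
  · exact ((wOp h 0).le_opNorm x).trans (mul_le_of_le_one_left (norm_nonneg _)
      ((norm_wOp_le h 0).trans (by simp)))
  · refine norm_le_of_sum_sq (norm_nonneg _) fun s => ?_
    calc ∑ i ∈ s, ‖x i‖ ^ 2 ≤ ∑ L ∈ s.image (fun i => i.blk.level J), ∑ i ∈ levSet J L, ‖x i‖ ^ 2 := by
          rw [← Finset.sum_fiberwise_of_maps_to
            (fun i hi => Finset.mem_image_of_mem (fun i : St => i.blk.level J) hi)]
          exact Finset.sum_le_sum fun L _ => Finset.sum_le_sum_of_subset_of_nonneg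
            (fun i hi => mem_levSet.2 (Finset.mem_filter.1 hi).2) fun _ _ _ => sq_nonneg _
      _ = ∑ L ∈ s.image (fun i => i.blk.level J), ∑ j ∈ levSet J' L, wOp h 0 x j ^ 2 := by
          refine Finset.sum_congr rfl fun L _ => ?_
          simp only [Real.norm_eq_abs, sq_abs]
          rw [← sum_sq_M h]
          refine Finset.sum_congr rfl fun j hj => ?_
          rw [wOp_apply, mem_levSet.1 hj]
          simp
      _ ≤ _ := sum_levSet_le J' _ _

theorem levelLocal_wOp (h : T.Moves J J) (p : ℤ) : LevelLocal J (wOp h p) := by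
  intro f K hK hf
  refine ContinuousLinearMap.ext fun x => ?_
  ext j
  simp only [ContinuousLinearMap.comp_apply, diagOp_apply, wOp_apply, Finset.mul_sum]
  refine Finset.sum_congr rfl fun i hi => ?_
  rw [mem_levSet.1 hi]
  ring

/-- On one level the operator computes the composition with the map: a vector `x` stands for
`∑ i, x i / mu i ^ s • Y i`. -/
theorem wOp_expand (h : T.Moves J J') (s : ℕ) (x : HSp) (L : ℕ × ℕ) (z : N2) :
    ∑ j ∈ levSet J' L, wOp h s x j / j.blk.mu ^ s * Y j (crd2 z) =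
      ∑ i ∈ levSet J L, x i / i.blk.mu ^ s * Y i (crd2 (T.g z)) := by
  calc ∑ j ∈ levSet J' L, wOp h s x j / j.blk.mu ^ s * Y j (crd2 z)
      = ∑ j ∈ levSet J' L, ∑ i ∈ levSet J L, x i / i.blk.mu ^ s * (T.M j i * Y j (crd2 z)) := by
        refine Finset.sum_congr rfl fun j hj => ?_
        rw [wOp_apply, mem_levSet.1 hj, Finset.sum_div, Finset.sum_mul]
        refine Finset.sum_congr rfl fun i _ => ?_
        have h1 := Blk.one_le_mu i.blk
        have h2 := Blk.one_le_mu j.blk
        rw [zpow_natCast, div_pow]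
        field_simp
    _ = _ := by
        rw [Finset.sum_comm]
        refine Finset.sum_congr rfl fun i hi => ?_
        rw [← Finset.mul_sum, ← T.expand_on (fun j hj => h.zero (mem_levSet.1 hi) hj) z]

end Pullback

end

end Vale.Agent.P225.Sphere
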