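import Vale.Agent.P225.Sphere.Real

/-!
Measure preserving maps of the group that pull polynomials back to polynomials: their real matrices
on the basis `Q` are orthogonal and only join blocks with matching Casimir values.
-/

namespace Vale.Agent.P225.Sphere

open MvPolynomial MeasureTheory
open scoped ComplexConjugate Classical

noncomputable section

/-- A measure preserving map with a polynomial pull-back. -/
structure Pullback where
  g : N2 → N2
  τ : Pol →ₐ[ℂ] Pol
  evN_τ : ∀ p x, evN (τ p) x = evN p (g x)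
  integral : ∀ p, ∫ x, evN p (g x) ∂haarN = ∫ x, evN p x ∂haarN

namespace Pullback

variable (T : Pullback)

theorem ip_τ (p q : Pol) : ip (T.τ p) (T.τ q) = ip p q := by
  rw [ip, ip_eq p q, ← T.integral]
  refine integral_congr_ae (Filter.Eventually.of_forall fun x => ?_)
  simp [T.evN_τ, evN_mul, evN_pc]

/-- The coefficient of `Y i ∘ g` on `Y j`. -/
def M (j i : St) : ℝ := (cfQ (T.τ (Q i)) j).re

theorem cfQ_τ (j i : St) : cfQ (T.τ (Q i)) j = (T.M j i : ℂ) := by
  refine (Complex.conj_eq_iff_re.1 ?_).symm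
  rw [cfQ, ip, ← integral_conj]
  refine integral_congr_ae (Filter.Eventually.of_forall fun x => ?_)
  simp only [T.evN_τ, evN_apply, map_mul, conj_ev_Q]

/-- The expansion `Y i ∘ g = ∑ j, M j i • Y j` on the group. -/
theorem expand (i : St) : ∃ s : Finset St, (∀ j ∉ s, T.M j i = 0) ∧
    ∀ x, Y i (crd2 (T.g x)) = ∑ j ∈ s, T.M j i * Y j (crd2 x) := by
  obtain ⟨s, hs, e⟩ := expansionQ (T.τ (Q i))
  refine ⟨s, fun j hj => by rw [M, hs j hj, Complex.zero_re], fun x => ?_⟩
  have h : evN (T.τ (Q i)) x = (∑ j ∈ s, cfQ (T.τ (Q i)) j • evN (Q j)) x := congrFun e x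
  rw [T.evN_τ, evN_apply, ← ofReal_Y, Finset.sum_apply] at h
  simp only [Pi.smul_apply, smul_eq_mul, cfQ_τ, evN_apply, ← ofReal_Y] at h
  exact_mod_cast h

/-- Any finite set containing the nonzero coefficients serves for the expansion. -/
theorem expand_on {i : St} {s : Finset St} (hs : ∀ j ∉ s, T.M j i = 0) (x : N2) :
    Y i (crd2 (T.g x)) = ∑ j ∈ s, T.M j i * Y j (crd2 x) := by
  obtain ⟨t, ht, e⟩ := T.expand i
  rw [e x]
  rw [Finset.sum_subset (Finset.subset_union_left (s₂ := s)) fun j _ hj => by rw [ht j hj, zero_mul],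
    ← Finset.sum_subset (Finset.subset_union_right (s₁ := t)) fun j _ hj => by rw [hs j hj, zero_mul]]

/-- The columns are orthonormal. -/
theorem orth {i k : St} {s : Finset St} (hs : ∀ j ∉ s, T.M j i = 0) :
    ∑ j ∈ s, T.M j i * T.M j k = if i = k then 1 else 0 := by
  have h : ip (T.τ (Q i)) (T.τ (Q k)) = ((if i = k then 1 else 0 : ℝ) : ℂ) := by
    rw [T.ip_τ, ip_Q]; split_ifs <;> simp
  obtain ⟨t, ht, e⟩ := expansionQ (T.τ (Q i))
  rw [ip_congr (show evN (T.τ (Q i)) = evN (∑ j ∈ t, cfQ (T.τ (Q i)) j • Q j) by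
    rw [e, map_sum]; simp only [map_smul]) rfl, ← ip_conj, ip_sum_right, map_sum] at h
  have h2 : ∑ j ∈ t, T.M j i * T.M j k = if i = k then 1 else 0 := by
    have h3 : ∀ j, conj (ip (T.τ (Q k)) (cfQ (T.τ (Q i)) j • Q j)) =
        ((T.M j i * T.M j k : ℝ) : ℂ) := fun j => by
      rw [ip_smul_right, ← ip_conj (Q j), show ip (Q j) (T.τ (Q k)) = cfQ (T.τ (Q k)) j from rfl,
        cfQ_τ, cfQ_τ, Complex.conj_ofReal, map_mul, Complex.conj_ofReal, Complex.conj_ofReal,
        Complex.ofReal_mul]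
    simp only [h3] at h
    exact_mod_cast h
  have ht' : ∀ j ∉ t, T.M j i = 0 := fun j hj => by rw [M, ht j hj, Complex.zero_re]
  rw [← h2, Finset.sum_subset (Finset.subset_union_left (s₂ := t)) fun j _ hj => by
      rw [hs j hj, zero_mul],
    ← Finset.sum_subset (Finset.subset_union_right (s₁ := s)) fun j _ hj => by
      rw [ht' j hj, zero_mul]]

/-- The pull-back turns the Casimir operator of slot `s` into that of slot `s'`. -/
def Carries (s s' : Slot) : Prop :=
  ∀ p, evN (T.τ (s.triple.cas p)) = evN (s'.triple.cas (T.τ p))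

/-- The label seen by the slots `R 0`, `R 1`, `D`. -/
def rLabel (V : Blk) : Fin 3 → ℕ := ![V.la, V.lb, V.lc]

/-- The right slots. -/
def rSlot : Fin 3 → Slot := ![.R 0, .R 1, .D]

theorem ev_cas_rSlot (i : St) (r : Fin 3) : ev ((rSlot r).triple.cas (Q i)) =
    ev ((Blk.cas (rLabel i.1 r) : ℂ) • Q i) := by
  fin_cases r
  · show ev ((Slot.R 0).triple.cas (Q i)) = _
    rw [← Slot.cas_left_eq]
    exact ev_cas_Q i 0
  · show ev ((Slot.R 1).triple.cas (Q i)) = _
    rw [← Slot.cas_left_eq]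
    exact ev_cas_Q i 1
  · exact ev_cas_Q i 2

/-- The matrix only joins blocks with matching labels. -/
theorem M_eq_zero {r r' : Fin 3} (h : T.Carries (rSlot r) (rSlot r')) {i j : St}
    (hne : rLabel j.1 r' ≠ rLabel i.1 r) : T.M j i = 0 := by
  have e := (rSlot r').ip_cas (Q j) (T.τ (Q i))
  rw [ip_congr (evN_congr (ev_cas_rSlot j r')) rfl, ip_smul_left, Complex.conj_ofReal,
    ← ip_congr (p := Q j) rfl (h (Q i))] at e
  have e2 : evN (T.τ ((rSlot r).triple.cas (Q i))) =
      evN ((Blk.cas (rLabel i.1 r) : ℂ) • T.τ (Q i)) := by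
    funext x
    rw [T.evN_τ, congrFun (evN_congr (ev_cas_rSlot i r)) (T.g x)]
    simp [T.evN_τ]
  rw [ip_congr (p := Q j) rfl e2, ip_smul_right] at e
  have hz : ((Blk.cas (rLabel j.1 r') : ℂ) - (Blk.cas (rLabel i.1 r) : ℂ)) * cfQ (T.τ (Q i)) j = 0 := by
    rw [cfQ]; linear_combination e
  rw [M, (mul_eq_zero.1 hz).resolve_left ?_, Complex.zero_re]
  rw [sub_eq_zero, Complex.ofReal_inj]
  exact fun e3 => hne (cas_injective e3)

end Pullback

end

end Vale.Agent.P225.Sphere
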