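import Vale.Agent.P225.Sphere.Conj

/-!
The real orthonormal basis `Y` of polynomial functions: eigenfunctions of every invariant Laplacian,
and the expansion of an arbitrary real polynomial function.
-/

namespace Vale.Agent.P225.Sphere

open MvPolynomial
open scoped ComplexConjugate Classical

noncomputable section

/-- The position of the opposite state. -/
def ordI (i : St) : ℕ := i.2

/-- A square root of the phase. -/
def zeta (i : St) : ℂ := phase i ^ ((2 : ℂ)⁻¹)

theorem zeta_sq (i : St) : zeta i ^ 2 = phase i := Complex.cpow_nat_inv_pow _ two_ne_zero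

/-- The complex half of a real basis polynomial. -/
def half (i : St) : Pol :=
  if ordI i < ordI (opp i) then ((Real.sqrt 2)⁻¹ : ℂ) • Z i
  else if ordI (opp i) < ordI i then (-Complex.I * (Real.sqrt 2 : ℂ)⁻¹) • Z (opp i)
  else (zeta i / 2) • Z i

/-- The real orthonormal family. -/
def Q (i : St) : Pol := half i + pc (half i)

/-- The basis functions, homogeneous of degrees `la` and `lb` in the two variables. -/
def Y (i : St) (x : R44) : ℝ := (ev (Q i) x).re

theorem conj_ev_Q (i : St) (x : R44) : conj (ev (Q i) x) = ev (Q i) x := by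
  simp [Q, ev_pc, add_comm]

theorem ofReal_Y (i : St) (x : R44) : ((Y i x : ℝ) : ℂ) = ev (Q i) x :=
  Complex.conj_eq_iff_re.1 (conj_ev_Q i x)

theorem evN_pc_smul (c : ℂ) (p : Pol) : evN (pc (c • p)) = conj c • evN (pc p) := by
  funext x; simp [evN_pc]

theorem opp_eq_self {i : St} (h1 : ¬ordI i < ordI (opp i)) (h2 : ¬ordI (opp i) < ordI i) :
    opp i = i := by
  obtain ⟨V, m⟩ := i
  have h : oppFin V m = m := Fin.ext (by simp only [ordI, opp] at h1 h2; omega)
  exact congrArg (Sigma.mk V) h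

theorem conj_zeta_phase (i : St) : conj (zeta i) * phase i = zeta i := by
  have h1 : (conj (zeta i) * zeta i) ^ 2 = 1 := by
    rw [mul_pow, ← map_pow, zeta_sq, norm_phase]
  have h2 : conj (zeta i) * zeta i = 1 := by
    rw [← Complex.normSq_eq_conj_mul_self] at h1 ⊢
    norm_cast at h1 ⊢
    nlinarith [Complex.normSq_nonneg (zeta i)]
  rw [← zeta_sq, sq, ← mul_assoc, h2, one_mul]

theorem evN_Q_lt {i : St} (h : ordI i < ordI (opp i)) : evN (Q i) =
    ((Real.sqrt 2)⁻¹ : ℂ) • evN (Z i) + ((Real.sqrt 2)⁻¹ * phase i : ℂ) • evN (Z (opp i)) := by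
  rw [Q, half, if_pos h, map_add, map_smul, evN_pc_smul, evN_pc_Z, smul_smul]
  simp

theorem evN_Q_gt {i : St} (h : ordI (opp i) < ordI i) : evN (Q i) =
    (-Complex.I * (Real.sqrt 2 : ℂ)⁻¹) • evN (Z (opp i)) +
      (Complex.I * (Real.sqrt 2 : ℂ)⁻¹ * phase i) • evN (Z i) := by
  rw [Q, half, if_neg h.asymm, if_pos h, map_add, map_smul, evN_pc_smul, evN_pc_Z, smul_smul,
    opp_opp, phase_opp]
  simp

theorem evN_Q_eq {i : St} (h1 : ¬ordI i < ordI (opp i)) (h2 : ¬ordI (opp i) < ordI i) :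
    evN (Q i) = zeta i • evN (Z i) := by
  rw [Q, half, if_neg h1, if_neg h2, map_add, map_smul, evN_pc_smul, evN_pc_Z, opp_eq_self h1 h2,
    smul_smul, ← add_smul, map_div₀, map_ofNat]
  congr 1
  rw [div_mul_eq_mul_div, conj_zeta_phase, ← add_div]
  ring

/-- The coefficient of `Q i` on `Z k`. -/
theorem ip_Z_Q (k i : St) : ip (Z k) (Q i) =
    if ordI i < ordI (opp i) then
      (if k = i then ((Real.sqrt 2)⁻¹ : ℂ) else 0) +
        (if k = opp i then ((Real.sqrt 2)⁻¹ * phase i : ℂ) else 0)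
    else if ordI (opp i) < ordI i then
      (if k = opp i then (-Complex.I * (Real.sqrt 2 : ℂ)⁻¹) else 0) +
        (if k = i then (Complex.I * (Real.sqrt 2 : ℂ)⁻¹ * phase i) else 0)
    else if k = i then zeta i else 0 := by
  have key : ∀ (c d : ℂ) (a b : St), evN (Q i) = c • evN (Z a) + d • evN (Z b) →
      ip (Z k) (Q i) = (if k = a then c else 0) + (if k = b then d else 0) := by
    intro c d a b e
    rw [ip_congr rfl (show evN (Q i) = evN (c • Z a + d • Z b) by rw [e, map_add, map_smul, map_smul]),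
      ip_add_right, ip_smul_right, ip_smul_right, ip_Z, ip_Z]
    simp
  by_cases h1 : ordI i < ordI (opp i)
  · rw [if_pos h1]; exact key _ _ _ _ (evN_Q_lt h1)
  by_cases h2 : ordI (opp i) < ordI i
  · rw [if_neg h1, if_pos h2]; exact key _ _ _ _ (evN_Q_gt h2)
  rw [if_neg h1, if_neg h2, key (zeta i) 0 i i (by rw [evN_Q_eq h1 h2, zero_smul, add_zero])]
  simp

theorem sqrt_two_inv_mul : ((Real.sqrt 2 : ℂ)⁻¹) * (Real.sqrt 2 : ℂ)⁻¹ = 1 / 2 := by
  rw [← mul_inv, ← Complex.ofReal_mul, Real.mul_self_sqrt (by norm_num)]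
  norm_num

theorem ip_Q (i j : St) : ip (Q i) (Q j) = if i = j then 1 else 0 := by
  have hij : opp i = j ↔ i = opp j :=
    ⟨fun h => by rw [← h, opp_opp], fun h => by rw [h, opp_opp]⟩
  have e : ∀ (c d : ℂ) (a b : St), evN (Q i) = c • evN (Z a) + d • evN (Z b) →
      ip (Q i) (Q j) = conj c * ip (Z a) (Q j) + conj d * ip (Z b) (Q j) := by
    intro c d a b e
    rw [ip_congr (show evN (Q i) = evN (c • Z a + d • Z b) by rw [e, map_add, map_smul, map_smul]) rfl,
      ip_add_left, ip_smul_left, ip_smul_left]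
  by_cases hi1 : ordI i < ordI (opp i)
  · rw [e _ _ _ _ (evN_Q_lt hi1)]
    simp only [ip_Z_Q, map_mul, map_inv₀, Complex.conj_ofReal]
    by_cases hj : i = j
    · subst hj
      have hne : i ≠ opp i := fun h => by rw [← h] at hi1; exact lt_irrefl _ hi1
      have hn := norm_phase i
      simp [hi1, hne, hne.symm]
      linear_combination (1 + conj (phase i) * phase i) * sqrt_two_inv_mul + hn / 2
    · rw [if_neg hj]
      by_cases hj2 : i = opp j
      · subst hj2
        simp only [opp_opp] at hi1 ⊢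
        simp [hi1, hi1.asymm, hj, Ne.symm hj, phase_opp]
        have hn := norm_phase j
        linear_combination (Complex.I * (Real.sqrt 2 : ℂ)⁻¹ * (Real.sqrt 2 : ℂ)⁻¹) * hn
      · have h3 : opp i ≠ j := fun h => hj2 (hij.1 h)
        have h4 : opp i ≠ opp j := fun h => hj (by rw [← opp_opp i, h, opp_opp])
        simp [hj, hj2, h3, h4]
  by_cases hi2 : ordI (opp i) < ordI i
  · rw [e _ _ _ _ (evN_Q_gt hi2)]
    simp only [ip_Z_Q, map_mul, map_neg, map_inv₀, Complex.conj_ofReal, Complex.conj_I]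
    by_cases hj : i = j
    · subst hj
      have hne : i ≠ opp i := fun h => by rw [← h] at hi2; exact lt_irrefl _ hi2
      have hn := norm_phase i
      simp [hi1, hi2, hne, hne.symm]
      linear_combination (-Complex.I * Complex.I) * (1 + conj (phase i) * phase i) * sqrt_two_inv_mul
        + hn / 2 + (-(1 + conj (phase i) * phase i) / 2) * Complex.I_mul_I
    · rw [if_neg hj]
      by_cases hj2 : i = opp j
      · subst hj2
        simp only [opp_opp] at hi1 hi2 ⊢
        simp [hi2, hj, Ne.symm hj, phase_opp]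
        have hn := norm_phase j
        linear_combination (-(Complex.I * (Real.sqrt 2 : ℂ)⁻¹ * (Real.sqrt 2 : ℂ)⁻¹)) * hn
      · have h3 : opp i ≠ j := fun h => hj2 (hij.1 h)
        have h4 : opp i ≠ opp j := fun h => hj (by rw [← opp_opp i, h, opp_opp])
        simp [hj, hj2, h3, h4]
  rw [e (zeta i) 0 i i (by rw [evN_Q_eq hi1 hi2, zero_smul, add_zero]), map_zero, zero_mul,
    add_zero, ip_Z_Q]
  have hf := opp_eq_self hi1 hi2
  by_cases hj : i = j
  · subst hj
    rw [if_neg hi1, if_neg hi2, if_pos rfl, if_pos rfl, ← conj_zeta_phase i, map_mul,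
      RCLike.conj_conj]
    have hn := norm_phase i
    have hz : conj (zeta i) * zeta i = 1 := by
      have h1 := conj_zeta_phase i
      have h2 : conj (zeta i) * zeta i = conj (zeta i) * (conj (zeta i) * phase i) := by rw [h1]
      have h3 : (conj (zeta i) * zeta i) = conj (zeta i ^ 2) * phase i := by
        rw [h2, map_pow]; ring
      rw [h3, zeta_sq, hn]
    linear_combination (conj (zeta i) * zeta i) * hn + hz
  · have h3 : i ≠ opp j := fun h => hj (by rw [← hf, h, opp_opp])
    simp [hj, h3]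

theorem mem_span_Q (p : Pol) : p ∈ Submodule.span ℂ (Set.range Q) ⊔ K := by
  refine SetLike.le_def.1 (sup_le (Submodule.span_le.2 ?_) le_sup_right) (mem_span_Z p)
  rintro _ ⟨i, rfl⟩
  have mk : ∀ (c d : ℂ) (a b : St), evN (Z i) = c • evN (Q a) + d • evN (Q b) →
      Z i ∈ Submodule.span ℂ (Set.range Q) ⊔ K := by
    intro c d a b e
    refine Submodule.mem_sup.2 ⟨c • Q a + d • Q b, add_mem (Submodule.smul_mem _ _
      (Submodule.subset_span ⟨a, rfl⟩)) (Submodule.smul_mem _ _ (Submodule.subset_span ⟨b, rfl⟩)),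
      Z i - (c • Q a + d • Q b), ?_, add_sub_cancel _ _⟩
    rw [K, LinearMap.mem_ker, map_sub, e, map_add, map_smul, map_smul, sub_self]
  have h2 : (Real.sqrt 2 : ℂ) ≠ 0 := by exact_mod_cast (Real.sqrt_pos.2 two_pos).ne'
  by_cases h1 : ordI i < ordI (opp i)
  · have hg : ordI (opp (opp i)) < ordI (opp i) := by rwa [opp_opp]
    refine mk ((Real.sqrt 2 : ℂ) / 2) ((Real.sqrt 2 : ℂ) / 2 * Complex.I) i (opp i) ?_
    rw [evN_Q_lt h1, evN_Q_gt hg, opp_opp, phase_opp]
    match_scalars <;> field_simp <;> ring_nf <;> simp [Complex.I_sq] <;> ring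
  by_cases h3 : ordI (opp i) < ordI i
  · have hl : ordI (opp i) < ordI (opp (opp i)) := by rwa [opp_opp]
    have hn := norm_phase i
    refine mk ((Real.sqrt 2 : ℂ) / 2 * (-Complex.I) * conj (phase i))
      ((Real.sqrt 2 : ℂ) / 2 * conj (phase i)) i (opp i) ?_
    rw [evN_Q_gt h3, evN_Q_lt hl, opp_opp, phase_opp]
    match_scalars <;> field_simp <;> ring_nf <;> simp [Complex.I_sq] <;>
      linear_combination -2 * hn
  refine mk (conj (zeta i)) 0 i i ?_
  rw [evN_Q_eq h1 h3, zero_smul, add_zero, smul_smul]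
  have hz : conj (zeta i) * zeta i = 1 := by
    have := congrArg (fun z => conj (zeta i) * z) (conj_zeta_phase i)
    rw [show conj (zeta i) * (conj (zeta i) * phase i) = conj (zeta i ^ 2) * phase i by
      rw [map_pow]; ring, zeta_sq, norm_phase] at this
    exact this.symm
  rw [hz, one_smul]

theorem ev_cas_Z (i : St) (r : Fin 3) : ev ((slotOf r).triple.cas (Z i)) =
    ev ((Blk.cas (![i.1.la, i.1.lb, i.1.lc] r) : ℂ) • Z i) := by
  funext x
  simp [Z, bvec_cas]
  ring

/-- The eigen-equations hold on all of `ℝ⁴ × ℝ⁴`. -/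
theorem ev_cas_Q (i : St) (r : Fin 3) : ev ((slotOf r).triple.cas (Q i)) =
    ev ((Blk.cas (![i.1.la, i.1.lb, i.1.lc] r) : ℂ) • Q i) := by
  have key : ∀ (c : ℂ) (k : St), k.1 = i.1 → ev ((slotOf r).triple.cas (c • Z k + pc (c • Z k))) =
      ev ((Blk.cas (![i.1.la, i.1.lb, i.1.lc] r) : ℂ) • (c • Z k + pc (c • Z k))) := by
    intro c k hk
    funext x
    have h1 : ev (pc ((slotOf r).triple.cas (c • Z k))) x =
        conj (ev ((slotOf r).triple.cas (c • Z k)) x) := ev_pc _ x
    have h2 := congrFun (ev_cas_Z k r) x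
    rw [hk] at h2
    simp only [map_add, Pi.add_apply, (slotOf r).ev_cas_pc, ev_pc, map_smul, Pi.smul_apply,
      smul_eq_mul, h2, map_mul, Complex.conj_ofReal]
    ring
  rw [Q, half]
  split_ifs
  · exact key _ _ rfl
  · exact key _ (opp i) rfl
  · exact key _ _ rfl

/-- The Laplacian of the weights `w` in polynomial form. -/
def lapP (w : Fin 3 → ℝ) (p : Pol) : Pol :=
  ∑ u : Fin 3, ((w 0 : ℂ) • (Slot.R 0).rder u ((Slot.R 0).rder u p) +
    (w 1 : ℂ) • (Slot.R 1).rder u ((Slot.R 1).rder u p) +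
    (w 2 : ℂ) • Slot.D.rder u (Slot.D.rder u p))

theorem sum_rder_sq (s : Slot) (p : Pol) :
    ∑ u : Fin 3, s.rder u (s.rder u p) = -s.triple.cas p := by
  have he : s.der 0 (s.der 1 p) = s.der 1 (s.der 0 p) + s.der 2 p := by
    have := congrArg (fun D : Derivation ℂ Pol Pol => D p) s.der_ef
    rw [← this]
    simp [Derivation.commutator_apply]
  rw [Fin.sum_univ_three, Slot.cas_triple_apply]
  simp [Slot.rder, smul_smul, Complex.I_mul_I, Slot.sgn_sq, smul_sub, smul_add, he]
  module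

/-- Eigenfunctions of every invariant Laplacian, on all of `ℝ⁴ × ℝ⁴`. -/
theorem Q_eigen (w : Fin 3 → ℝ) (i : St) :
    ev (lapP w (Q i)) = ev ((-(Blk.lam w i.1) : ℂ) • Q i) := by
  have h0 : ev ((Slot.R 0).triple.cas (Q i)) = ev ((Blk.cas i.1.la : ℂ) • Q i) := by
    rw [← Slot.cas_left_eq]; exact ev_cas_Q i 0
  have h1 : ev ((Slot.R 1).triple.cas (Q i)) = ev ((Blk.cas i.1.lb : ℂ) • Q i) := by
    rw [← Slot.cas_left_eq]; exact ev_cas_Q i 1
  have h2 : ev (Slot.D.triple.cas (Q i)) = ev ((Blk.cas i.1.lc : ℂ) • Q i) := ev_cas_Q i 2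
  funext x
  simp only [lapP, Finset.sum_add_distrib, ← Finset.smul_sum, sum_rder_sq, map_add, map_smul,
    map_neg, Pi.add_apply, Pi.smul_apply, Pi.neg_apply, h0, h1, h2, smul_eq_mul, Blk.lam]
  push_cast
  ring

/-- The coefficient of a polynomial function on a basis function. -/
def cfQ (p : Pol) (i : St) : ℂ := ip (Q i) p

theorem expansionQ (p : Pol) : ∃ s : Finset St, (∀ i ∉ s, cfQ p i = 0) ∧
    evN p = ∑ i ∈ s, cfQ p i • evN (Q i) := by
  obtain ⟨r, hr, k, hk, rfl⟩ := Submodule.mem_sup.1 (mem_span_Q p)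
  obtain ⟨c, rfl⟩ := Finsupp.mem_span_range_iff_exists_finsupp.1 hr
  have hc : ∀ i, cfQ (c.sum (fun i a => a • Q i) + k) i = c i := by
    intro i
    rw [cfQ, ip_add_right, ip_mem_K_right _ hk, add_zero, Finsupp.sum, ip_sum_right]
    simp [ip_smul_right, ip_Q, eq_comm]
  refine ⟨c.support, fun i hi => by rw [hc]; simpa using hi, ?_⟩
  simp only [hc]
  rw [map_add, show evN k = 0 from LinearMap.mem_ker.1 hk, add_zero, Finsupp.sum, map_sum]
  exact Finset.sum_congr rfl fun i _ => by rw [map_smul]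

end

end Vale.Agent.P225.Sphere
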