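import Vale.Agent.P225.Sphere.Block

/-!
Bihomogeneity of the basis functions and bounds for their first two derivatives on the product of
the unit spheres.
-/

namespace Vale.Agent.P225.Sphere

open MvPolynomial
open scoped ComplexConjugate Classical

noncomputable section

/-- Bihomogeneity of degrees `(a, b)` as a function. -/
def Deg (a b : ℕ) (p : Pol) : Prop :=
  ∀ s t : ℝ, ∀ z : R44, ev p (s • z.1, t • z.2) = ((s ^ a * t ^ b : ℝ) : ℂ) * ev p z

theorem Deg.mul {a b c d : ℕ} {p q : Pol} (hp : Deg a b p) (hq : Deg c d q) :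
    Deg (a + c) (b + d) (p * q) := fun s t z => by
  rw [ev_mul, ev_mul, hp, hq]
  push_cast
  ring

theorem Deg.pow {a b : ℕ} {p : Pol} (hp : Deg a b p) : ∀ n, Deg (n * a) (n * b) (p ^ n)
  | 0 => fun s t z => by simp [ev_apply]
  | n + 1 => by rw [pow_succ, add_one_mul, add_one_mul]; exact (hp.pow n).mul hp

theorem Deg.smul {a b : ℕ} {p : Pol} (c : ℂ) (hp : Deg a b p) : Deg a b (c • p) := fun s t z => by
  simp [hp s t z]; ring

theorem Deg.add {a b : ℕ} {p q : Pol} (hp : Deg a b p) (hq : Deg a b q) : Deg a b (p + q) :=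
  fun s t z => by simp [hp s t z, hq s t z]; ring

theorem Deg.sub {a b : ℕ} {p q : Pol} (hp : Deg a b p) (hq : Deg a b q) : Deg a b (p - q) :=
  fun s t z => by simp [hp s t z, hq s t z]; ring

theorem Deg.conj {a b : ℕ} {p : Pol} (hp : Deg a b p) : Deg a b (pc p) := fun s t z => by
  rw [ev_pc, ev_pc, hp s t z, map_mul, Complex.conj_ofReal]

theorem deg_X (f i j : Fin 2) :
    Deg (if f = 0 then 1 else 0) (if f = 0 then 0 else 1) (X (f, i, j)) := fun s t z => by
  fin_cases f <;> fin_cases i <;> fin_cases j <;> simp [ev_X, ent, mat, Complex.ext_iff]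

theorem deg_mix : Deg 1 1 mix :=
  ((deg_X 0 0 0).mul (deg_X 1 0 1)).sub ((deg_X 0 0 1).mul (deg_X 1 0 0))

theorem deg_hw (k : ℕ × ℕ × ℕ) : Deg (k.2.1 + k.2.2) (k.1 + k.2.2) (hw k) := by
  have h := ((deg_mix.pow k.2.2).mul ((deg_X 0 0 0).pow k.2.1)).mul ((deg_X 1 0 0).pow k.1)
  simp only [one_ne_zero, if_true, if_false, mul_one, mul_zero, add_zero] at h
  rw [add_comm k.2.1, add_comm k.1]
  exact h

/-- Scaling of the two variables. -/
def scl (s t : ℝ) : R44 →L[ℝ] R44 :=
  (s • ContinuousLinearMap.fst ℝ R4 R4).prod (t • ContinuousLinearMap.snd ℝ R4 R4)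

theorem scl_apply (s t : ℝ) (z : R44) : scl s t z = (s • z.1, t • z.2) := rfl

theorem scl_field (sl : Slot) (u : Fin 3) (s t : ℝ) (z : R44) :
    scl s t (sl.field u z) = sl.field u (scl s t z) := by
  have hR : ∀ (c : ℝ) q, mulR u (c • q) = c • mulR u q := fun c q => by
    funext i; fin_cases u <;> fin_cases i <;> simp [mulR]
  have hL : ∀ (c : ℝ) q, mulL u (c • q) = c • mulL u q := fun c q => by
    funext i; fin_cases u <;> fin_cases i <;> simp [mulL]
  cases sl with
  | R f => fin_cases f <;> simp [Slot.field, scl_apply, hR]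
  | L f => fin_cases f <;> simp [Slot.field, scl_apply, hL]
  | D => simp [Slot.field, scl_apply, hR]

theorem differentiable_ev (p : Pol) : Differentiable ℝ (ev p) :=
  (contDiff_ev p (n := 1)).differentiable one_ne_zero

theorem Deg.rder {a b : ℕ} {p : Pol} (hp : Deg a b p) (sl : Slot) (u : Fin 3) :
    Deg a b (sl.rder u p) := fun s t z => by
  rw [← sl.fderiv_ev, ← sl.fderiv_ev, ← scl_apply, ← scl_field]
  have e : (fun y => ev p (scl s t y)) = fun y => ((s ^ a * t ^ b : ℝ) : ℂ) * ev p y :=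
    funext fun y => hp s t y
  have h1 := ((differentiable_ev p (scl s t z)).hasFDerivAt.comp z (scl s t).hasFDerivAt).fderiv
  rw [show (ev p ∘ scl s t) = fun y => ev p (scl s t y) from rfl, e,
    fderiv_const_mul (differentiable_ev p z)] at h1
  exact (congrArg (fun L : R44 →L[ℝ] ℂ => L (sl.field u z)) h1).symm

theorem Deg.der {a b : ℕ} {p : Pol} (hp : Deg a b p) (sl : Slot) (k : Fin 3) :
    Deg a b (sl.der k p) := by
  fin_cases k
  · show Deg a b (sl.der 0 p)
    rw [sl.der_zero_apply]; exact ((hp.rder sl 1).smul _).add ((hp.rder sl 2).smul _)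
  · show Deg a b (sl.der 1 p)
    rw [sl.der_one_apply]; exact ((hp.rder sl 1).smul _).add ((hp.rder sl 2).smul _)
  · show Deg a b (sl.der 2 p)
    rw [sl.der_two_apply]; exact (hp.rder sl 0).smul _

theorem deg_vec (k : ℕ × ℕ × ℕ) (i j l : ℕ) :
    Deg (k.2.1 + k.2.2) (k.1 + k.2.2) (vec k i j l) := by
  have key : ∀ (r : Fin 3) (n : ℕ) {m : Pol}, Deg (k.2.1 + k.2.2) (k.1 + k.2.2) m →
      Deg (k.2.1 + k.2.2) (k.1 + k.2.2) (((slotOf r).triple.F ^ n) m) := by
    intro r n
    induction n with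
    | zero => exact fun h => h
    | succ n ih => intro m h; rw [pow_succ', Module.End.mul_apply]; exact (ih h).der _ 1
  exact key 0 i (key 1 j (key 2 l (deg_hw k)))

theorem deg_Q (i : St) : Deg i.1.la i.1.lb (Q i) := by
  have hZ : ∀ k : St, Deg k.1.la k.1.lb (Z k) := fun k => by
    obtain ⟨h0, h1, h2, h3⟩ := Blk.tri k.1
    have ea : (kOf k.1).2.1 + (kOf k.1).2.2 = k.1.la := by simp only [kOf]; omega
    have eb : (kOf k.1).1 + (kOf k.1).2.2 = k.1.lb := by simp only [kOf]; omega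
    have := deg_vec (kOf k.1) (idx k.1 k.2).1.1 (idx k.1 k.2).1.2 (idx k.1 k.2).2
    rw [ea, eb] at this
    exact this.smul _
  have h : Deg i.1.la i.1.lb (half i) := by
    rw [half]
    split_ifs
    · exact (hZ i).smul _
    · exact (hZ (opp i)).smul _
    · exact (hZ i).smul _
  exact h.add h.conj

theorem Y_scale (i : St) (s t : ℝ) (z : R44) :
    Y i (s • z.1, t • z.2) = s ^ i.1.la * t ^ i.1.lb * Y i z := by
  rw [Y, Y, deg_Q i s t z, Complex.re_ofReal_mul]

/-- The eight linear fields: the two radial ones and the left rotations. -/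
def frameL (f : Fin 2) (o : Option (Fin 3)) : R44 →L[ℝ] R44 :=
  LinearMap.toContinuousLinearMap
    { toFun := fun z => match o with
        | none => if f = 0 then (z.1, 0) else (0, z.2)
        | some u => (Slot.L f).field u z
      map_add' := fun z w => by
        cases o with
        | none => fin_cases f <;> simp
        | some u =>
          fin_cases f <;> simp [Slot.field] <;> funext i <;>
            fin_cases u <;> fin_cases i <;> simp [mulL] <;> ring
      map_smul' := fun c z => by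
        cases o with
        | none => fin_cases f <;> simp
        | some u =>
          fin_cases f <;> simp [Slot.field] <;> funext i <;>
            fin_cases u <;> fin_cases i <;> simp [mulL] }

theorem frameL_none (f : Fin 2) (z : R44) :
    frameL f none z = if f = 0 then (z.1, 0) else (0, z.2) := rfl

theorem frameL_some (f : Fin 2) (u : Fin 3) (z : R44) :
    frameL f (some u) z = (Slot.L f).field u z := rfl

/-- The polynomial of the derivative along a frame field. -/
def frameP (a b : ℕ) (f : Fin 2) (o : Option (Fin 3)) (p : Pol) : Pol :=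
  match o with
  | none => ((if f = 0 then a else b : ℕ) : ℂ) • p
  | some u => (Slot.L f).rder u p

theorem fderiv_frame {a b : ℕ} {p : Pol} (hp : Deg a b p) (f : Fin 2) (o : Option (Fin 3))
    (z : R44) : fderiv ℝ (ev p) z (frameL f o z) = ev (frameP a b f o p) z := by
  cases o with
  | some u => exact (Slot.L f).fderiv_ev u p z
  | none =>
    obtain ⟨z1, z2⟩ := z
    rw [frameP, map_smul, Pi.smul_apply, smul_eq_mul, frameL_none]
    fin_cases f
    · have hc : HasDerivAt (fun s : ℝ => ((s • z1, (1 : ℝ) • z2) : R44)) (z1, 0) 1 := by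
        simpa using ((hasDerivAt_id' (1 : ℝ)).smul_const z1).prodMk (hasDerivAt_const (1 : ℝ) ((1 : ℝ) • z2))
      have h := (differentiable_ev p _).hasFDerivAt.comp_hasDerivAt (1 : ℝ) hc
      have h2 : HasDerivAt (fun s : ℝ => ((s ^ a * (1 : ℝ) ^ b : ℝ) : ℂ) * ev p (z1, z2))
          ((a : ℂ) * ev p (z1, z2)) 1 := by
        have h3 := ((hasDerivAt_pow a (1 : ℝ)).mul_const ((1 : ℝ) ^ b)).ofReal_comp.mul_const
          (ev p (z1, z2))
        simpa using h3
      rw [show (ev p ∘ fun s : ℝ => ((s • z1, (1 : ℝ) • z2) : R44)) = fun s : ℝ =>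
        ((s ^ a * (1 : ℝ) ^ b : ℝ) : ℂ) * ev p (z1, z2) from
        funext fun s => hp s 1 (z1, z2)] at h
      simpa using h.unique h2
    · have hc : HasDerivAt (fun t : ℝ => (((1 : ℝ) • z1, t • z2) : R44)) (0, z2) 1 := by
        simpa using (hasDerivAt_const (1 : ℝ) ((1 : ℝ) • z1)).prodMk ((hasDerivAt_id' (1 : ℝ)).smul_const z2)
      have h := (differentiable_ev p _).hasFDerivAt.comp_hasDerivAt (1 : ℝ) hc
      have h2 : HasDerivAt (fun t : ℝ => (((1 : ℝ) ^ a * t ^ b : ℝ) : ℂ) * ev p (z1, z2))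
          ((b : ℂ) * ev p (z1, z2)) 1 := by
        have h3 := ((hasDerivAt_pow b (1 : ℝ)).const_mul ((1 : ℝ) ^ a)).ofReal_comp.mul_const
          (ev p (z1, z2))
        simpa using h3
      rw [show (ev p ∘ fun t : ℝ => (((1 : ℝ) • z1, t • z2) : R44)) = fun t : ℝ =>
        (((1 : ℝ) ^ a * t ^ b : ℝ) : ℂ) * ev p (z1, z2) from
        funext fun t => hp 1 t (z1, z2)] at h
      simpa using h.unique h2

/-- The coefficient of a vector of `ℝ⁴` in the frame at `q`. -/
def fcoef (q ξ : R4) : Option (Fin 3) → ℝ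
  | none => ∑ i, q i * ξ i
  | some u => ∑ i, mulL u q i * ξ i

theorem fcoef_decomp {q : R4} (hq : ∑ i, q i ^ 2 = 1) (ξ : R4) :
    ξ = fcoef q ξ none • q + ∑ u, fcoef q ξ (some u) • mulL u q := by
  simp only [Fin.sum_univ_four] at hq
  funext i
  simp only [fcoef, Fin.sum_univ_three, Fin.sum_univ_four, Pi.add_apply, Pi.smul_apply, smul_eq_mul]
  fin_cases i <;> simp [mulL]
  · linear_combination -(ξ 0) * hq
  · linear_combination -(ξ 1) * hq
  · linear_combination -(ξ 2) * hq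
  · linear_combination -(ξ 3) * hq

theorem abs_le_one {q : R4} (hq : ∑ i, q i ^ 2 = 1) (i : Fin 4) : |q i| ≤ 1 := by
  rw [abs_le_one_iff_mul_self_le_one, ← sq, ← hq]
  exact Finset.single_le_sum (f := fun j => q j ^ 2) (fun j _ => sq_nonneg _) (Finset.mem_univ i)

theorem abs_fcoef_le {q : R4} (hq : ∑ i, q i ^ 2 = 1) (ξ : R4) (o : Option (Fin 3)) :
    |fcoef q ξ o| ≤ 4 * ‖ξ‖ := by
  have key : ∀ c : R4, (∀ i, |c i| ≤ 1) → |∑ i, c i * ξ i| ≤ 4 * ‖ξ‖ := fun c hc => by
    refine (Finset.abs_sum_le_sum_abs _ _).trans ?_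
    refine (Finset.sum_le_sum fun i _ => ?_).trans (le_of_eq (b := 4 * ‖ξ‖) (by simp : ∑ _i : Fin 4, ‖ξ‖ = 4 * ‖ξ‖))
    rw [abs_mul]
    exact le_trans (mul_le_of_le_one_left (abs_nonneg _) (hc i))
      ((Real.norm_eq_abs _).symm.le.trans (norm_le_pi_norm ξ i))
  cases o with
  | none => exact key q (abs_le_one hq)
  | some u =>
    refine key _ fun i => ?_
    fin_cases u <;> fin_cases i <;> simp [mulL, abs_le_one hq]

theorem norm_frameL_le (f : Fin 2) (o : Option (Fin 3)) (η : R44) : ‖frameL f o η‖ ≤ ‖η‖ := by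
  cases o with
  | none => fin_cases f <;> simp [frameL_none, Prod.norm_def]
  | some u =>
    have hL : ∀ q : R4, ‖mulL u q‖ ≤ ‖q‖ := fun q => by
      refine (pi_norm_le_iff_of_nonneg (norm_nonneg _)).2 fun i => ?_
      have := fun j => norm_le_pi_norm q j
      fin_cases u <;> fin_cases i <;> simp [mulL] <;>
        first | exact this 0 | exact this 1 | exact this 2 | exact this 3
    have h1 : ‖η.1‖ ≤ ‖η‖ := le_max_left _ _
    have h2 : ‖η.2‖ ≤ ‖η‖ := le_max_right _ _
    fin_cases f <;> simp [frameL_some, Slot.field, Prod.norm_def]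
    · exact Or.inl (hL _)
    · exact Or.inr (hL _)

theorem exists_crd2 {z : R44} (h1 : ∑ i, z.1 i ^ 2 = 1) (h2 : ∑ i, z.2 i ^ 2 = 1) :
    ∃ x : N2, crd2 x = z := by
  have key : ∀ q : R4, ∑ i, q i ^ 2 = 1 → ∃ s : S3, crd (s : Quaternion ℝ) = q := by
    intro q hq
    set Q0 : Quaternion ℝ := ⟨q 0, q 1, q 2, q 3⟩
    refine ⟨⟨Q0, mem_sphere_zero_iff_norm.2 ?_⟩, ?_⟩
    · rw [← sq_eq_sq₀ (norm_nonneg _) zero_le_one, sq, ← Quaternion.normSq_eq_norm_mul_self,
        Quaternion.normSq_def', one_pow]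
      exact (Fin.sum_univ_four fun i => q i ^ 2).symm.trans hq
    · funext i; fin_cases i <;> rfl
  obtain ⟨s, hs⟩ := key z.1 h1
  obtain ⟨t, ht⟩ := key z.2 h2
  exact ⟨(s, t), Prod.ext hs ht⟩

theorem sum_crd_sq (s : S3) : ∑ i, crd (s : Quaternion ℝ) i ^ 2 = 1 := by
  have h : Quaternion.normSq (s : Quaternion ℝ) = 1 := by
    rw [Quaternion.normSq_eq_norm_mul_self, mem_sphere_zero_iff_norm.1 s.2, one_mul]
  rw [Quaternion.normSq_def'] at h
  simpa [crd, Fin.sum_univ_four] using h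

/-- A linear functional on `ℝ⁴ × ℝ⁴` is controlled by its values on the frame. -/
theorem norm_apply_le (T : R44 →L[ℝ] ℂ) (x : N2) {B : ℝ}
    (hB : ∀ f o, ‖T (frameL f o (crd2 x))‖ ≤ B) (ξ : R44) : ‖T ξ‖ ≤ 32 * B * ‖ξ‖ := by
  obtain ⟨ξ1, ξ2⟩ := ξ
  have hq1 := sum_crd_sq x.1
  have hq2 := sum_crd_sq x.2
  have hd : ((ξ1, ξ2) : R44) =
      ∑ o, fcoef (crd x.1) ξ1 o • frameL 0 o (crd2 x) +
        ∑ o, fcoef (crd x.2) ξ2 o • frameL 1 o (crd2 x) := by
    refine Prod.ext ?_ ?_
    · simp [Fintype.sum_option, frameL_none, frameL_some, Slot.field, crd2, Prod.fst_sum]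
      exact fcoef_decomp hq1 ξ1
    · simp [Fintype.sum_option, frameL_none, frameL_some, Slot.field, crd2, Prod.snd_sum]
      exact fcoef_decomp hq2 ξ2
  have n1 : ‖ξ1‖ ≤ ‖((ξ1, ξ2) : R44)‖ := le_max_left _ _
  have n2 : ‖ξ2‖ ≤ ‖((ξ1, ξ2) : R44)‖ := le_max_right _ _
  have hB0 : 0 ≤ B := (norm_nonneg _).trans (hB 0 none)
  have term : ∀ (q η : R4), ∑ i, q i ^ 2 = 1 → ∀ (f : Fin 2) (o : Option (Fin 3)),
      ‖T (fcoef q η o • frameL f o (crd2 x))‖ ≤ 4 * ‖η‖ * B := fun q η hq f o => by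
    rw [map_smul, norm_smul, Real.norm_eq_abs]
    exact mul_le_mul (abs_fcoef_le hq η o) (hB f o) (norm_nonneg _) (by positivity)
  rw [hd, map_add, map_sum, map_sum, ← hd]
  refine (norm_add_le _ _).trans ((add_le_add ((norm_sum_le _ _).trans
    (Finset.sum_le_sum fun o _ => term _ ξ1 hq1 0 o))
    ((norm_sum_le _ _).trans (Finset.sum_le_sum fun o _ => term _ ξ2 hq2 1 o))).trans ?_)
  simp only [Finset.sum_const, Finset.card_univ, Fintype.card_option, Fintype.card_fin,
    nsmul_eq_mul]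
  push_cast
  nlinarith

theorem inBlk_frameP {V : Blk} {p : Pol} (hp : InBlk V p) (a b : ℕ) (f : Fin 2)
    (o : Option (Fin 3)) : InBlk V (frameP a b f o p) := by
  cases o with
  | none =>
    intro r
    simp only [frameP, map_smul, hp r]
    rw [smul_comm]
  | some u => exact inBlk_rder hp f u

theorem deg_frameP {a b : ℕ} {p : Pol} (hp : Deg a b p) (f : Fin 2) (o : Option (Fin 3)) :
    Deg a b (frameP a b f o p) := by
  cases o with
  | none => exact hp.smul _
  | some u => exact hp.rder _ u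

theorem sqrt_ip_frameP_le {V : Blk} {p : Pol} (hp : InBlk V p) (f : Fin 2) (o : Option (Fin 3)) :
    Real.sqrt (ip (frameP V.la V.lb f o p) (frameP V.la V.lb f o p)).re ≤
      V.mu * Real.sqrt (ip p p).re := by
  have hmu : 0 ≤ V.mu := le_trans zero_le_one (Blk.one_le_mu V)
  have h : (ip (frameP V.la V.lb f o p) (frameP V.la V.lb f o p)).re ≤
      V.mu ^ 2 * (ip p p).re := by
    cases o with
    | some u => exact ip_rder_le hp f u
    | none =>
      have nn : 0 ≤ (ip p p).re := by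
        rw [ip_self, Complex.ofReal_re]
        exact MeasureTheory.integral_nonneg fun x => Complex.normSq_nonneg _
      simp only [frameP, ip_smul_left, ip_smul_right]
      have hn : ((if f = 0 then V.la else V.lb : ℕ) : ℝ) ≤ V.mu := by
        have ha : (0 : ℝ) ≤ V.la := Nat.cast_nonneg _
        have hb : (0 : ℝ) ≤ V.lb := Nat.cast_nonneg _
        have hc : (0 : ℝ) ≤ V.lc := Nat.cast_nonneg _
        fin_cases f <;> simp [Blk.mu] <;> linarith
      generalize (if f = 0 then V.la else V.lb) = n at hn ⊢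
      rw [show (n : ℂ) = ((n : ℝ) : ℂ) from (Complex.ofReal_natCast n).symm, Complex.conj_ofReal,
        ← mul_assoc, ← Complex.ofReal_mul, Complex.re_ofReal_mul]
      exact mul_le_mul_of_nonneg_right (by rw [sq]; gcongr) nn
  calc _ ≤ Real.sqrt (V.mu ^ 2 * (ip p p).re) := Real.sqrt_le_sqrt h
    _ = _ := by rw [Real.sqrt_mul (sq_nonneg _), Real.sqrt_sq hmu]

theorem norm_ev_le {V : Blk} {p : Pol} (hp : InBlk V p) (x : N2) :
    ‖ev p (crd2 x)‖ ≤ Real.sqrt (ip p p).re * Real.sqrt V.dim := norm_le_sqrt_dim hp x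

/-- First derivative on the unit spheres. -/
theorem norm_fderiv_le {V : Blk} {p : Pol} (hp : InBlk V p) (hd : Deg V.la V.lb p) (x : N2)
    (ξ : R44) : ‖fderiv ℝ (ev p) (crd2 x) ξ‖ ≤
      32 * (V.mu * Real.sqrt (ip p p).re * Real.sqrt V.dim) * ‖ξ‖ := by
  refine norm_apply_le _ x (fun f o => ?_) ξ
  rw [fderiv_frame hd]
  exact (norm_ev_le (inBlk_frameP hp _ _ f o) x).trans
    (mul_le_mul_of_nonneg_right (sqrt_ip_frameP_le hp f o) (Real.sqrt_nonneg _))

/-- Second derivative on the unit spheres. -/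
theorem norm_fderiv2_le {V : Blk} {p : Pol} (hp : InBlk V p) (hd : Deg V.la V.lb p) (x : N2)
    (η ξ : R44) : ‖fderiv ℝ (fderiv ℝ (ev p)) (crd2 x) η ξ‖ ≤
      2048 * (V.mu ^ 2 * Real.sqrt (ip p p).re * Real.sqrt V.dim) * ‖η‖ * ‖ξ‖ := by
  set N := Real.sqrt (ip p p).re * Real.sqrt V.dim with hN
  have hN0 : 0 ≤ N := mul_nonneg (Real.sqrt_nonneg _) (Real.sqrt_nonneg _)
  have hmu : 1 ≤ V.mu := Blk.one_le_mu V
  have hd2 : Differentiable ℝ (fderiv ℝ (ev p)) :=
    ((contDiff_ev p (n := 2)).fderiv_right (m := 1) le_rfl).differentiable one_ne_zero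
  have key : ∀ f o, ‖fderiv ℝ (fderiv ℝ (ev p)) (crd2 x) η (frameL f o (crd2 x))‖ ≤
      64 * (V.mu ^ 2 * N) * ‖η‖ := by
    intro f o
    have h1 := ((hd2 (crd2 x)).hasFDerivAt.clm_apply (frameL f o).hasFDerivAt).fderiv
    rw [show (fun y => fderiv ℝ (ev p) y (frameL f o y)) = ev (frameP V.la V.lb f o p) from
      funext fun y => fderiv_frame hd f o y] at h1
    have h2 := congrArg (fun L : R44 →L[ℝ] ℂ => L η) h1
    simp only [add_apply, ContinuousLinearMap.comp_apply, ContinuousLinearMap.flip_apply] at h2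
    have h3 : fderiv ℝ (fderiv ℝ (ev p)) (crd2 x) η (frameL f o (crd2 x)) =
        fderiv ℝ (ev (frameP V.la V.lb f o p)) (crd2 x) η -
          fderiv ℝ (ev p) (crd2 x) (frameL f o η) := by rw [h2]; abel
    rw [h3]
    have e1 := norm_fderiv_le (inBlk_frameP hp V.la V.lb f o) (deg_frameP hd f o) x η
    have e2 := norm_fderiv_le hp hd x (frameL f o η)
    have b1 : V.mu * Real.sqrt (ip (frameP V.la V.lb f o p) (frameP V.la V.lb f o p)).re *
        Real.sqrt V.dim ≤ V.mu ^ 2 * N := by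
      rw [hN, sq, mul_assoc V.mu, mul_assoc V.mu V.mu]
      refine mul_le_mul_of_nonneg_left ?_ (by linarith)
      rw [← mul_assoc]
      exact mul_le_mul_of_nonneg_right (sqrt_ip_frameP_le hp f o) (Real.sqrt_nonneg _)
    have b2 : V.mu * Real.sqrt (ip p p).re * Real.sqrt V.dim ≤ V.mu ^ 2 * N := by
      rw [mul_assoc, ← hN]
      exact mul_le_mul_of_nonneg_right (by nlinarith) hN0
    have b3 := norm_frameL_le f o η
    refine (norm_sub_le _ _).trans ((add_le_add e1 e2).trans ?_)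
    nlinarith [mul_le_mul_of_nonneg_right b1 (norm_nonneg η),
      mul_le_mul b2 b3 (norm_nonneg _) (by positivity)]
  refine (norm_apply_le _ x key ξ).trans (le_of_eq ?_)
  rw [hN]
  ring

theorem fderiv_Y (i : St) (z : R44) :
    fderiv ℝ (Y i) z = Complex.reCLM.comp (fderiv ℝ (ev (Q i)) z) :=
  (Complex.reCLM.hasFDerivAt.comp z (differentiable_ev (Q i) z).hasFDerivAt).fderiv

theorem contDiff_Y (i : St) {n : WithTop ℕ∞} : ContDiff ℝ n (Y i) :=
  Complex.reCLM.contDiff.comp (contDiff_ev (Q i))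

theorem abs_fderiv_Y_le (i : St) (x : N2) (ξ : R44) :
    |fderiv ℝ (Y i) (crd2 x) ξ| ≤ 32 * (i.1.mu * Real.sqrt i.1.dim) * ‖ξ‖ := by
  have h := norm_fderiv_le (inBlk_Q i) (deg_Q i) x ξ
  rw [ip_Q, if_pos rfl, Complex.one_re, Real.sqrt_one, mul_one] at h
  rw [fderiv_Y]
  exact (Complex.abs_re_le_norm _).trans h

theorem abs_fderiv2_Y_le (i : St) (x : N2) (η ξ : R44) :
    |fderiv ℝ (fderiv ℝ (Y i)) (crd2 x) η ξ| ≤
      2048 * (i.1.mu ^ 2 * Real.sqrt i.1.dim) * ‖η‖ * ‖ξ‖ := by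
  have h := norm_fderiv2_le (inBlk_Q i) (deg_Q i) x η ξ
  rw [ip_Q, if_pos rfl, Complex.one_re, Real.sqrt_one, mul_one] at h
  have hd2 : Differentiable ℝ (fderiv ℝ (ev (Q i))) :=
    ((contDiff_ev (Q i) (n := 2)).fderiv_right (m := 1) le_rfl).differentiable one_ne_zero
  have e := ((ContinuousLinearMap.compL ℝ R44 ℂ ℝ Complex.reCLM).hasFDerivAt.comp (crd2 x)
    (hd2 (crd2 x)).hasFDerivAt).fderiv
  rw [show fderiv ℝ (Y i) = (ContinuousLinearMap.compL ℝ R44 ℂ ℝ Complex.reCLM) ∘
    fderiv ℝ (ev (Q i)) from funext fun z => fderiv_Y i z, e]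
  exact (Complex.abs_re_le_norm _).trans h

end

end Vale.Agent.P225.Sphere
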