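import Vale.Agent.P225.Sphere.Product
import Vale.Agent.P225.Space

/-!
The orthonormal family of complex polynomials indexed by the states, and its completeness among the
polynomial functions on the group.
-/

namespace Vale.Agent.P225.Sphere

open MvPolynomial
open scoped Classical

noncomputable section

theorem ip_mem_K_right (p : Pol) {q : Pol} (h : q ∈ K) : ip p q = 0 := by
  simp [ip, mem_K.1 h]

/-- A chain that starts outside `K` stays outside. -/
theorem iterate_notMem (s : Slot) {v : Pol} {n : ℕ} (h : s.triple.H v = (n : ℂ) • v)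
    (he : s.triple.E v = 0) (hv : v ∉ K) : ∀ k ≤ n, (s.triple.F ^ k) v ∉ K := by
  intro k
  induction k with
  | zero => intro _; exact hv
  | succ k ih =>
    intro hk h0
    have e : s.triple.E ((s.triple.F ^ (k + 1)) v) ∈ K := s.der_mem_K 0 h0
    rw [Triple.E_iterate h he k] at e
    refine ih (by omega) ((Submodule.smul_mem_iff K ?_).1 e)
    refine mul_ne_zero ?_ (sub_ne_zero.2 ?_)
    · exact_mod_cast Nat.succ_ne_zero k
    · exact_mod_cast (show n ≠ k by omega)

/-- The quaternion `3/5 + (4/5) j`. -/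
def baseQ : Quaternion ℝ := ⟨3 / 5, 0, 4 / 5, 0⟩

theorem norm_baseQ : ‖baseQ‖ = 1 := by
  rw [← sq_eq_sq₀ (norm_nonneg _) zero_le_one, sq, ← Quaternion.normSq_eq_norm_mul_self,
    Quaternion.normSq_def']
  simp [baseQ]
  norm_num

/-- A point where the highest vectors do not vanish. -/
def basePt : N2 := (1, ⟨baseQ, mem_sphere_zero_iff_norm.2 norm_baseQ⟩)

theorem hw_notMem (k : ℕ × ℕ × ℕ) : hw k ∉ K := fun h => by
  have e := mem_K.1 h basePt
  simp [evN_apply, ev_apply, hw, mix, ent, mat, crd, crd2, basePt, baseQ, Complex.ext_iff] at e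
  norm_num [Quaternion.re_one, Quaternion.imI_one, Quaternion.imJ_one, Quaternion.imK_one] at e

theorem vec_notMem (k : ℕ × ℕ × ℕ) {i j l : ℕ} (hi : i ≤ label k 0) (hj : j ≤ label k 1)
    (hl : l ≤ label k 2) : vec k i j l ∉ K := by
  have h1 : ∀ (r r' : Fin 3), r ≠ r' → ∀ (n : ℕ) {p : Pol},
      (slotOf r).triple.H p = (label k r : ℂ) • p →
      (slotOf r).triple.H (((slotOf r').triple.F ^ n) p) =
        (label k r : ℂ) • ((slotOf r').triple.F ^ n) p := by
    intro r r' hr n p hp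
    change (slotOf r).der 2 p = _ at hp
    show (slotOf r).der 2 _ = _
    rw [F_pow_comm hr, hp, map_smul]
  have h2 : ∀ (r r' : Fin 3), r ≠ r' → ∀ (n : ℕ) {p : Pol},
      (slotOf r).triple.E p = 0 → (slotOf r).triple.E (((slotOf r').triple.F ^ n) p) = 0 := by
    intro r r' hr n p hp
    change (slotOf r).der 0 p = _ at hp
    show (slotOf r).der 0 _ = _
    rw [F_pow_comm hr, hp, map_zero]
  refine iterate_notMem _ (h1 0 1 (by decide) j (h1 0 2 (by decide) l (hw_H k 0)))
    (h2 0 1 (by decide) j (h2 0 2 (by decide) l (hw_E k 0))) ?_ i hi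
  refine iterate_notMem _ (h1 1 2 (by decide) l (hw_H k 1)) (h2 1 2 (by decide) l (hw_E k 1)) ?_ j hj
  exact iterate_notMem _ (hw_H k 2) (hw_E k 2) (hw_notMem k) l hl

/-- The exponents `(k₁, k₂, k₃)` of a block. -/
def kOf (V : Blk) : ℕ × ℕ × ℕ :=
  ((V.lb + V.lc - V.la) / 2, (V.la + V.lc - V.lb) / 2, (V.la + V.lb - V.lc) / 2)

theorem Blk.tri (V : Blk) : (V.la + V.lb + V.lc) % 2 = 0 ∧ V.la ≤ V.lb + V.lc ∧
    V.lb ≤ V.la + V.lc ∧ V.lc ≤ V.la + V.lb := V.2

theorem label_kOf (V : Blk) : label (kOf V) = ![V.la, V.lb, V.lc] := by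
  obtain ⟨h0, h1, h2, h3⟩ := Blk.tri V
  funext r
  fin_cases r <;> simp [label, kOf] <;> omega

/-- The indices inside a block. -/
abbrev Ix (V : Blk) : Type := (Fin (V.la + 1) × Fin (V.lb + 1)) × Fin (V.lc + 1)

/-- The position inside a block. -/
def idx (V : Blk) : Fin V.dim ≃ Ix V :=
  finProdFinEquiv.symm.trans (finProdFinEquiv.symm.prodCongr (Equiv.refl _))

/-- The unnormalised vector of a block. -/
def bvec (V : Blk) (q : Ix V) : Pol := vec (kOf V) q.1.1 q.1.2 q.2

/-- The weights `(i, j, l)` of an index. -/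
def pos {V : Blk} (q : Ix V) : Fin 3 → ℕ := ![q.1.1, q.1.2, q.2]

theorem pos_injective {V : Blk} : Function.Injective (pos (V := V)) := fun p q h => by
  have h0 : (p.1.1 : ℕ) = q.1.1 := congrFun h 0
  have h1 : (p.1.2 : ℕ) = q.1.2 := congrFun h 1
  have h2 : (p.2 : ℕ) = q.2 := congrFun h 2
  exact Prod.ext (Prod.ext (Fin.ext h0) (Fin.ext h1)) (Fin.ext h2)

theorem bvec_H (V : Blk) (q : Ix V) (r : Fin 3) : (slotOf r).der 2 (bvec V q) =
    ((((![V.la, V.lb, V.lc] r : ℕ) : ℝ) - 2 * (pos q r : ℕ) : ℝ) : ℂ) • bvec V q := by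
  rw [bvec, vec_H, label_kOf]
  push_cast
  rfl

theorem bvec_cas (V : Blk) (q : Ix V) (r : Fin 3) : (slotOf r).triple.cas (bvec V q) =
    ((Blk.cas (![V.la, V.lb, V.lc] r) : ℝ) : ℂ) • bvec V q := by
  rw [bvec, vec_cas, label_kOf, Blk.cas]
  push_cast
  rfl

theorem bvec_notMem (V : Blk) (q : Ix V) : bvec V q ∉ K := by
  have h := label_kOf V
  refine vec_notMem _ ?_ ?_ ?_ <;> simp only [h, Matrix.cons_val] <;> omega

theorem cas_injective : Function.Injective Blk.cas := fun x y h => by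
  simp only [Blk.cas] at h
  have : ((x : ℝ) - y) * ((x : ℝ) + y + 2) = 0 := by linear_combination h
  rcases mul_eq_zero.1 this with h1 | h1
  · exact_mod_cast sub_eq_zero.1 h1
  · linarith [x.cast_nonneg (α := ℝ), y.cast_nonneg (α := ℝ)]

theorem ip_bvec {i j : St} (h : i ≠ j) :
    ip (bvec i.1 (idx i.1 i.2)) (bvec j.1 (idx j.1 j.2)) = 0 := by
  obtain ⟨V, m⟩ := i
  obtain ⟨W, n⟩ := j
  rcases eq_or_ne V W with rfl | hV
  · obtain ⟨r, hr⟩ : ∃ r, pos (idx V m) r ≠ pos (idx V n) r :=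
      Function.ne_iff.1 fun e => h (by rw [(idx V).injective (pos_injective e)])
    refine (slotOf r).ip_eq_zero_of_weight (bvec_H V _ r) (bvec_H V _ r) fun e => hr ?_
    have : ((pos (idx V m) r : ℕ) : ℝ) = (pos (idx V n) r : ℕ) := by linarith
    exact_mod_cast this
  · obtain ⟨r, hr⟩ : ∃ r, (![V.la, V.lb, V.lc] : Fin 3 → ℕ) r ≠ ![W.la, W.lb, W.lc] r := by
      refine Function.ne_iff.1 fun e => hV (Subtype.ext ?_)
      have h0 : V.la = W.la := congrFun e 0
      have h1 : V.lb = W.lb := congrFun e 1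
      have h2 : V.lc = W.lc := congrFun e 2
      exact Prod.ext h0 (Prod.ext h1 h2)
    exact (slotOf r).ip_eq_zero_of_cas (bvec_cas V _ r) (bvec_cas W _ r)
      fun e => hr (cas_injective e)

/-- The normalising factor. -/
def nrm (i : St) : ℝ := Real.sqrt (ip (bvec i.1 (idx i.1 i.2)) (bvec i.1 (idx i.1 i.2))).re

theorem nrm_pos (i : St) : 0 < nrm i := by
  refine Real.sqrt_pos.2 ?_
  set p := bvec i.1 (idx i.1 i.2)
  have h0 : ip p p ≠ 0 := fun e => bvec_notMem _ _ (ip_self_eq_zero.1 e)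
  rw [ip_self, Complex.ofReal_re]
  refine lt_of_le_of_ne (MeasureTheory.integral_nonneg fun x => Complex.normSq_nonneg _) ?_
  intro e
  exact h0 (by rw [ip_self, ← e, Complex.ofReal_zero])

/-- The complex orthonormal family. -/
def Z (i : St) : Pol := ((nrm i)⁻¹ : ℂ) • bvec i.1 (idx i.1 i.2)

theorem ip_Z (i j : St) : ip (Z i) (Z j) = if i = j then 1 else 0 := by
  rw [Z, Z, ip_smul_left, ip_smul_right]
  split_ifs with h
  · subst h
    have hp := nrm_pos i
    have h2 : nrm i ^ 2 = (ip (bvec i.1 (idx i.1 i.2)) (bvec i.1 (idx i.1 i.2))).re :=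
      Real.sq_sqrt (le_of_lt (Real.sqrt_pos.1 hp))
    have e : ip (bvec i.1 (idx i.1 i.2)) (bvec i.1 (idx i.1 i.2)) = ((nrm i ^ 2 : ℝ) : ℂ) := by
      rw [h2, ip_self, Complex.ofReal_re]
    rw [e, map_inv₀, Complex.conj_ofReal]
    push_cast
    have : (nrm i : ℂ) ≠ 0 := by exact_mod_cast hp.ne'
    field_simp
  · rw [ip_bvec h, mul_zero, mul_zero]

theorem linearIndependent_Z : LinearIndependent ℂ fun i => evN (Z i) := by
  rw [linearIndependent_iff']
  intro s c hc j hj
  have hK : ∑ i ∈ s, c i • Z i ∈ K := by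
    rw [K, LinearMap.mem_ker, map_sum, ← hc]
    simp only [map_smul]
  have := ip_mem_K_right (Z j) hK
  rw [ip_sum_right] at this
  simp only [ip_smul_right, ip_Z, mul_ite, mul_one, mul_zero, Finset.sum_ite_eq, hj, if_true] at this
  exact this

theorem sum_sub_two_mul (N : ℕ) : ∀ n, 2 * n ≤ N →
    ∑ m ∈ Finset.range (n + 1), (N + 1 - 2 * m) = (n + 1) * (N + 1 - n) := by
  intro n
  induction n with
  | zero => simp
  | succ n ih =>
    intro h
    rw [Finset.sum_range_succ, ih (by omega)]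
    obtain ⟨r, rfl⟩ := Nat.exists_eq_add_of_le h
    rw [show 2 * (n + 1) + r + 1 - 2 * (n + 1) = r + 1 by omega,
      show 2 * (n + 1) + r + 1 - n = n + r + 3 by omega,
      show 2 * (n + 1) + r + 1 - (n + 1) = n + r + 2 by omega]
    ring

theorem level_count (a b : ℕ) :
    ∑ m : Fin (min a b + 1), (a + b - 2 * (m : ℕ) + 1) = (a + 1) * (b + 1) := by
  rw [Fin.sum_univ_eq_sum_range fun m => a + b - 2 * m + 1]
  rw [show ∑ m ∈ Finset.range (min a b + 1), (a + b - 2 * m + 1) =
    ∑ m ∈ Finset.range (min a b + 1), (a + b + 1 - 2 * m) from Finset.sum_congr rfl fun m hm => by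
      have := Finset.mem_range.1 hm; omega, sum_sub_two_mul _ _ (by omega)]
  rcases le_total a b with h | h
  · rw [min_eq_left h, show a + b + 1 - a = b + 1 by omega]
  · rw [min_eq_right h, show a + b + 1 - b = a + 1 by omega, mul_comm]

/-- The block `(a, b, a + b - 2 m)`. -/
def mkBlk (a b : ℕ) (m : Fin (min a b + 1)) : Blk :=
  ⟨(a, b, a + b - 2 * m), by
    have := m.2
    simp only [Tri]
    omega⟩

theorem bvec_mem (V : Blk) (q : Ix V) : bvec V q ∈ M2 V.la V.lb := by
  have h := vec_mem (kOf V) q.1.1 q.1.2 q.2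
  obtain ⟨h0, h1, h2, h3⟩ := Blk.tri V
  have ea : (kOf V).2.1 + (kOf V).2.2 = V.la := by simp only [kOf]; omega
  have eb : (kOf V).1 + (kOf V).2.2 = V.lb := by simp only [kOf]; omega
  rwa [ea, eb] at h

/-- Every polynomial is, on the group, a combination of the family. -/
theorem mem_span_Z (p : Pol) : p ∈ Submodule.span ℂ (Set.range Z) ⊔ K := by
  refine SetLike.le_def.1 (sup_le (iSup_le fun ab => ?_) le_sup_right) (mem_iSup_M2 p)
  obtain ⟨a, b⟩ := ab
  show M2 a b ≤ _
  let G : (Fin (a + 1) × Fin (a + 1)) × (Fin (b + 1) × Fin (b + 1)) → Pol :=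
    fun q => gen 0 a q.1.1 q.1.2 * gen 1 b q.2.1 q.2.2
  have hM : M2 a b = Submodule.span ℂ (Set.range G) := by
    rw [M2, M1, M1, Submodule.span_mul_span]
    congr 1
    ext x
    simp [G, Set.mem_mul]
  let A : Submodule ℂ (N2 → ℂ) := Submodule.span ℂ (Set.range (evN ∘ G))
  have hA : A = (M2 a b).map evN := by rw [hM, Submodule.map_span, ← Set.range_comp]
  let T := Σ m : Fin (min a b + 1), Fin (mkBlk a b m).dim
  let s : T → St := fun t => ⟨mkBlk a b t.1, t.2⟩
  have hs : Function.Injective s := by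
    rintro ⟨m, x⟩ ⟨m', x'⟩ e
    have e1 : mkBlk a b m = mkBlk a b m' := congrArg Sigma.fst e
    have hm : m = m' := by
      have : a + b - 2 * (m : ℕ) = a + b - 2 * (m' : ℕ) := congrArg Blk.lc e1
      have := m.2
      have := m'.2
      exact Fin.ext (by omega)
    subst hm
    simp [s] at e ⊢
    exact congrArg (Sigma.mk m) e
  have hli : LinearIndependent ℂ fun t => evN (Z (s t)) := linearIndependent_Z.comp s hs
  have hle : Submodule.span ℂ (Set.range fun t => evN (Z (s t))) ≤ A := by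
    rw [hA, Submodule.span_le]
    rintro _ ⟨t, rfl⟩
    exact Submodule.mem_map_of_mem (Submodule.smul_mem _ _ (bvec_mem (mkBlk a b t.1) _))
  have : FiniteDimensional ℂ A := FiniteDimensional.span_of_finite ℂ (Set.finite_range _)
  have heq : Submodule.span ℂ (Set.range fun t => evN (Z (s t))) = A := by
    refine Submodule.eq_of_le_of_finrank_le hle ?_
    rw [finrank_span_eq_card hli]
    refine (finrank_range_le_card (R := ℂ) (evN ∘ G)).trans (le_of_eq ?_)
    simp only [T, Fintype.card_sigma, Fintype.card_prod, Fintype.card_fin]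
    rw [show ∑ m, (mkBlk a b m).dim = (a + 1) * (b + 1) * ∑ m : Fin (min a b + 1),
      (a + b - 2 * (m : ℕ) + 1) by rw [Finset.mul_sum]; rfl, level_count]
    ring
  intro q hq
  have hq' : evN q ∈ Submodule.span ℂ (Set.range fun t => evN (Z (s t))) := by
    rw [heq, hA]; exact Submodule.mem_map_of_mem hq
  rw [show (fun t => evN (Z (s t))) = evN ∘ fun t => Z (s t) from rfl, Set.range_comp,
    ← Submodule.map_span] at hq'
  obtain ⟨r, hr, e⟩ := Submodule.mem_map.1 hq'
  have hk : q - r ∈ K := by rw [K, LinearMap.mem_ker, map_sub, e, sub_self]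
  rw [← add_sub_cancel r q]
  refine Submodule.add_mem_sup ?_ hk
  exact Submodule.span_mono (Set.range_comp_subset_range s Z) hr

/-- The coefficients of a polynomial. -/
def cf (p : Pol) (i : St) : ℂ := ip (Z i) p

/-- The expansion of a polynomial function. -/
theorem expansion (p : Pol) : ∃ s : Finset St, (∀ i ∉ s, cf p i = 0) ∧
    evN p = ∑ i ∈ s, cf p i • evN (Z i) := by
  obtain ⟨r, hr, k, hk, rfl⟩ := Submodule.mem_sup.1 (mem_span_Z p)
  obtain ⟨c, rfl⟩ := Finsupp.mem_span_range_iff_exists_finsupp.1 hr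
  have hc : ∀ i, cf (c.sum (fun i a => a • Z i) + k) i = c i := by
    intro i
    rw [cf, ip_add_right, ip_mem_K_right _ hk, add_zero, Finsupp.sum, ip_sum_right]
    simp [ip_smul_right, ip_Z, eq_comm]
  refine ⟨c.support, fun i hi => by rw [hc]; simpa using hi, ?_⟩
  simp only [hc]
  rw [map_add, show evN k = 0 from LinearMap.mem_ker.1 hk, add_zero, Finsupp.sum, map_sum]
  exact Finset.sum_congr rfl fun i _ => by rw [map_smul]

theorem mem_K_of_cf {p : Pol} (h : ∀ i, cf p i = 0) : p ∈ K := by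
  obtain ⟨s, -, e⟩ := expansion p
  rw [K, LinearMap.mem_ker, e]
  simp [h]

end

end Vale.Agent.P225.Sphere
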