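import Vale.Agent.P225.Sphere.Maps

/-!
One block: the squares of its basis functions sum to its dimension, so its functions are bounded by
`√dim` times their norm, and each left invariant operator costs a factor `mu`.
-/

namespace Vale.Agent.P225.Sphere

open MvPolynomial MeasureTheory
open scoped ComplexConjugate Classical Matrix

noncomputable section

/-- The states of a block. -/
def blkSet (V : Blk) : Finset St :=
  Finset.univ.map ⟨Sigma.mk V, sigma_mk_injective⟩

theorem mem_blkSet {V : Blk} {i : St} : i ∈ blkSet V ↔ i.1 = V := by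
  constructor
  · intro h
    obtain ⟨m, -, rfl⟩ := Finset.mem_map.1 h
    rfl
  · rintro rfl
    exact Finset.mem_map.2 ⟨i.2, Finset.mem_univ _, rfl⟩

theorem rLabel_injective {V W : Blk} (h : Pullback.rLabel V = Pullback.rLabel W) : V = W :=
  Subtype.ext (Prod.ext (congrFun h 0 : V.la = W.la)
    (Prod.ext (congrFun h 1 : V.lb = W.lb) (congrFun h 2 : V.lc = W.lc)))

theorem leftT_block (h : N2) {i j : St} (hne : j.1 ≠ i.1) : (Pullback.leftT h).M j i = 0 := by
  obtain ⟨r, hr⟩ := Function.ne_iff.1 fun e => hne (rLabel_injective e)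
  exact (Pullback.leftT h).M_eq_zero (Pullback.leftT_carries h r) hr

theorem leftT_sum_sq (h : N2) (V : Blk) (x : N2) :
    ∑ m, Y ⟨V, m⟩ (crd2 (h * x)) ^ 2 = ∑ m, Y ⟨V, m⟩ (crd2 x) ^ 2 := by
  set A : Matrix (Fin V.dim) (Fin V.dim) ℝ :=
    Matrix.of fun n m => (Pullback.leftT h).M ⟨V, n⟩ ⟨V, m⟩
  have hs : ∀ m, ∀ j ∉ blkSet V, (Pullback.leftT h).M j ⟨V, m⟩ = 0 := fun m j hj =>
    leftT_block h fun e => hj (mem_blkSet.2 e)
  have he : ∀ m, Y ⟨V, m⟩ (crd2 (h * x)) = (Aᵀ *ᵥ fun n => Y ⟨V, n⟩ (crd2 x)) m := fun m => by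
    refine ((Pullback.leftT h).expand_on (hs m) x).trans ?_
    rw [blkSet, Finset.sum_map]
    simp [A, Matrix.mulVec, dotProduct]
  have hA : Aᵀ * A = 1 := by
    ext m k
    have e := (Pullback.leftT h).orth (k := ⟨V, k⟩) (hs m)
    rw [blkSet, Finset.sum_map] at e
    simpa [A, Matrix.mul_apply, Matrix.one_apply] using e
  have hA' : A * Aᵀ = 1 := mul_eq_one_comm.1 hA
  set v := fun n => Y ⟨V, n⟩ (crd2 x)
  calc ∑ m, Y ⟨V, m⟩ (crd2 (h * x)) ^ 2 = (Aᵀ *ᵥ v) ⬝ᵥ (Aᵀ *ᵥ v) := by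
        simp only [he, dotProduct, sq]
    _ = v ⬝ᵥ ((A * Aᵀ) *ᵥ v) := by
        rw [Matrix.dotProduct_mulVec, ← Matrix.mulVec_transpose, Matrix.transpose_transpose,
          Matrix.mulVec_mulVec, dotProduct_comm]
    _ = ∑ m, Y ⟨V, m⟩ (crd2 x) ^ 2 := by
        rw [hA', Matrix.one_mulVec]; simp only [v, dotProduct, sq]

theorem continuous_Y (i : St) : Continuous (Y i) :=
  Complex.continuous_re.comp (continuous_ev _)

theorem integral_Y_sq (i : St) : ∫ x, Y i (crd2 x) ^ 2 ∂haarN = 1 := by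
  have h := ip_Q i i
  rw [if_pos rfl, ip] at h
  have e : (fun x => conj (evN (Q i) x) * evN (Q i) x) =
      fun x => ((Y i (crd2 x) ^ 2 : ℝ) : ℂ) := by
    funext x
    rw [evN_apply, ← ofReal_Y, Complex.conj_ofReal]
    push_cast
    ring
  rw [e, integral_complex_ofReal] at h
  exact_mod_cast h

/-- The squares of a block sum to its dimension everywhere on the group. -/
theorem sum_sq_eq_dim (V : Blk) (x : N2) : ∑ m, Y ⟨V, m⟩ (crd2 x) ^ 2 = V.dim := by
  have hc : ∀ y, ∑ m, Y ⟨V, m⟩ (crd2 y) ^ 2 = ∑ m, Y ⟨V, m⟩ (crd2 x) ^ 2 := fun y => by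
    have := leftT_sum_sq (y * x⁻¹) V x
    rwa [inv_mul_cancel_right] at this
  have h2 : ∫ y, ∑ m, Y ⟨V, m⟩ (crd2 y) ^ 2 ∂haarN = V.dim := by
    have hi : ∀ m ∈ (Finset.univ : Finset (Fin V.dim)),
        Integrable (fun y : N2 => Y ⟨V, m⟩ (crd2 y) ^ 2) haarN := fun m _ =>
      Continuous.integrable_of_hasCompactSupport
        (((continuous_Y _).comp continuous_crd2).pow 2) (HasCompactSupport.of_compactSpace _)
    rw [integral_finsetSum _ hi]
    simp [integral_Y_sq]
  rw [← h2, integral_congr_ae (Filter.Eventually.of_forall hc)]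
  simp

/-- Membership of a block, through the Casimir values. -/
def InBlk (V : Blk) (p : Pol) : Prop :=
  ∀ r, evN ((Pullback.rSlot r).triple.cas p) = evN ((Blk.cas (Pullback.rLabel V r) : ℂ) • p)

theorem inBlk_Q (i : St) : InBlk i.1 (Q i) := fun r => evN_congr (Pullback.ev_cas_rSlot i r)

theorem cfQ_eq_zero {V : Blk} {p : Pol} (hp : InBlk V p) {j : St} (hj : j.1 ≠ V) :
    cfQ p j = 0 := by
  obtain ⟨r, hr⟩ := Function.ne_iff.1 fun e => hj (rLabel_injective e)
  have e := (Pullback.rSlot r).ip_cas (Q j) p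
  rw [ip_congr (evN_congr (Pullback.ev_cas_rSlot j r)) rfl, ip_smul_left, Complex.conj_ofReal,
    ip_congr (p := Q j) rfl (hp r), ip_smul_right] at e
  have hz : ((Blk.cas (Pullback.rLabel j.1 r) : ℂ) - (Blk.cas (Pullback.rLabel V r) : ℂ)) *
      cfQ p j = 0 := by rw [cfQ]; linear_combination e
  refine (mul_eq_zero.1 hz).resolve_left ?_
  rw [sub_eq_zero, Complex.ofReal_inj]
  exact fun e3 => hr (cas_injective e3)

theorem expand_blk {V : Blk} {p : Pol} (hp : InBlk V p) :
    evN p = ∑ m, cfQ p ⟨V, m⟩ • evN (Q ⟨V, m⟩) := by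
  obtain ⟨s, hs, e⟩ := expansionQ p
  rw [e, Finset.sum_subset (Finset.subset_union_left (s₂ := blkSet V)) fun j _ hj => by
      rw [hs j hj, zero_smul],
    ← Finset.sum_subset (Finset.subset_union_right (s₁ := s)) fun j _ hj => by
      rw [cfQ_eq_zero hp fun h => hj (mem_blkSet.2 h), zero_smul], blkSet, Finset.sum_map]
  rfl

theorem ip_self_blk {V : Blk} {p : Pol} (hp : InBlk V p) :
    (ip p p).re = ∑ m, ‖cfQ p ⟨V, m⟩‖ ^ 2 := by
  rw [ip_congr (p := p) rfl (show evN p = evN (∑ m, cfQ p ⟨V, m⟩ • Q ⟨V, m⟩) by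
    rw [expand_blk hp, map_sum]; simp only [map_smul]), ip_sum_right, Complex.re_sum]
  refine Finset.sum_congr rfl fun m _ => ?_
  rw [ip_smul_right, ← ip_conj, show ip (Q ⟨V, m⟩) p = cfQ p ⟨V, m⟩ from rfl, Complex.mul_conj,
    Complex.ofReal_re, Complex.normSq_eq_norm_sq]

/-- Functions of a block are bounded by `√dim` times their norm. -/
theorem norm_le_sqrt_dim {V : Blk} {p : Pol} (hp : InBlk V p) (x : N2) :
    ‖evN p x‖ ≤ Real.sqrt (ip p p).re * Real.sqrt V.dim := by
  rw [expand_blk hp, Finset.sum_apply]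
  refine (norm_sum_le _ _).trans ?_
  refine le_of_eq_of_le (Finset.sum_congr rfl fun m _ => ?_)
    ((Real.sum_mul_le_sqrt_mul_sqrt Finset.univ (fun m => ‖cfQ p ⟨V, m⟩‖)
      (fun m => |Y ⟨V, m⟩ (crd2 x)|)).trans (le_of_eq ?_))
  · rw [Pi.smul_apply, norm_smul, evN_apply, ← ofReal_Y, Complex.norm_real, Real.norm_eq_abs]
  · simp only [sq_abs, ip_self_blk hp, sum_sq_eq_dim]

theorem abs_Y_le (i : St) (x : N2) : |Y i (crd2 x)| ≤ Real.sqrt i.1.dim := by
  have := norm_le_sqrt_dim (inBlk_Q i) x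
  rw [ip_Q, if_pos rfl, Complex.one_re, Real.sqrt_one, one_mul, evN_apply, ← ofReal_Y,
    Complex.norm_real, Real.norm_eq_abs] at this
  exact this

theorem evN_der_congr (s : Slot) (k : Fin 3) {p q : Pol} (h : evN p = evN q) :
    evN (s.der k p) = evN (s.der k q) := by
  have hk : p - q ∈ K := by rw [K, LinearMap.mem_ker, map_sub, h, sub_self]
  have := s.der_mem_K k hk
  rw [K, LinearMap.mem_ker, map_sub, map_sub, sub_eq_zero] at this
  exact this

theorem cas_der_L (f : Fin 2) (r : Fin 3) (k : Fin 3) (p : Pol) :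
    (Pullback.rSlot r).triple.cas ((Slot.L f).der k p) =
      (Slot.L f).der k ((Pullback.rSlot r).triple.cas p) :=
  Slot.cas_commute (by fin_cases r <;> rfl) k p

theorem inBlk_der {V : Blk} {p : Pol} (hp : InBlk V p) (f : Fin 2) (k : Fin 3) :
    InBlk V ((Slot.L f).der k p) := fun r => by
  rw [cas_der_L, evN_der_congr _ k (hp r), Derivation.map_smul]

theorem inBlk_rder {V : Blk} {p : Pol} (hp : InBlk V p) (f : Fin 2) (u : Fin 3) :
    InBlk V ((Slot.L f).rder u p) := by
  have h := fun k => inBlk_der hp f k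
  intro r
  have h0 := h 0 r
  have h1 := h 1 r
  have h2 := h 2 r
  fin_cases u <;>
    simp [Slot.rder, map_smul, map_add, map_sub, h0, h1, h2] <;> module

/-- A left operator costs at most a factor `mu` in norm. -/
theorem ip_rder_le {V : Blk} {p : Pol} (hp : InBlk V p) (f : Fin 2) (u : Fin 3) :
    (ip ((Slot.L f).rder u p) ((Slot.L f).rder u p)).re ≤ V.mu ^ 2 * (ip p p).re := by
  have nn : ∀ q : Pol, 0 ≤ (ip q q).re := fun q => by
    rw [ip_self, Complex.ofReal_re]; exact integral_nonneg fun x => Complex.normSq_nonneg _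
  have hsum : ∑ v, (ip ((Slot.L f).rder v p) ((Slot.L f).rder v p)).re =
      Blk.cas (Pullback.rLabel V f.castSucc) * (ip p p).re := by
    rw [← Complex.re_sum]
    have e : ∑ v, ip ((Slot.L f).rder v p) ((Slot.L f).rder v p) =
        ip p ((Slot.L f).triple.cas p) := by
      simp only [Slot.ip_rder, Finset.sum_neg_distrib, ← ip_sum_right, sum_rder_sq,
        ← neg_one_smul ℂ ((Slot.L f).triple.cas p), ip_smul_right]
      ring
    have hr : Pullback.rSlot f.castSucc = Slot.R f := by fin_cases f <;> rfl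
    have hc := hp f.castSucc
    rw [hr, ← Slot.cas_left_eq] at hc
    rw [e, ip_congr (p := p) rfl hc, ip_smul_right, Complex.re_ofReal_mul]
  refine (Finset.single_le_sum (f := fun v => (ip ((Slot.L f).rder v p) ((Slot.L f).rder v p)).re)
    (fun v _ => nn _) (Finset.mem_univ u)).trans (hsum.le.trans ?_)
  refine mul_le_mul_of_nonneg_right ?_ (nn p)
  have ha : (0 : ℝ) ≤ V.la := Nat.cast_nonneg _
  have hb : (0 : ℝ) ≤ V.lb := Nat.cast_nonneg _
  have hc : (0 : ℝ) ≤ V.lc := Nat.cast_nonneg _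
  fin_cases f <;> simp [Pullback.rLabel, Blk.cas, Blk.mu] <;> nlinarith

end

end Vale.Agent.P225.Sphere
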