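import Vale.Agent.P225.Sphere.Basis

/-!
Conjugation exchanges raising and lowering; on the group it permutes the orthonormal family up to
phases.
-/

namespace Vale.Agent.P225.Sphere

open MvPolynomial
open scoped ComplexConjugate Classical

noncomputable section

theorem evN_congr {p q : Pol} (h : ev p = ev q) : evN p = evN q :=
  funext fun x => congrFun h (crd2 x)

theorem ip_congr {p p' q q' : Pol} (hp : evN p = evN p') (hq : evN q = evN q') :
    ip p q = ip p' q' := by rw [ip, ip, hp, hq]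

namespace Slot

theorem ev_rder_congr (s : Slot) (u : Fin 3) {p q : Pol} (h : ev p = ev q) :
    ev (s.rder u p) = ev (s.rder u q) :=
  funext fun x => by rw [← s.fderiv_ev, ← s.fderiv_ev, h]

theorem ev_der_congr (s : Slot) (k : Fin 3) {p q : Pol} (h : ev p = ev q) :
    ev (s.der k p) = ev (s.der k q) := by
  fin_cases k
  · show ev (s.der 0 p) = ev (s.der 0 q)
    simp only [der_zero_apply, map_add, map_smul, s.ev_rder_congr _ h]
  · show ev (s.der 1 p) = ev (s.der 1 q)
    simp only [der_one_apply, map_add, map_smul, s.ev_rder_congr _ h]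
  · show ev (s.der 2 p) = ev (s.der 2 q)
    simp only [der_two_apply, map_smul, s.ev_rder_congr _ h]

/-- Raising and lowering are exchanged by conjugation. -/
def flipK : Fin 3 → Fin 3 := ![1, 0, 2]

theorem conj_sgn (s : Slot) : conj s.sgn = s.sgn := by cases s <;> simp [sgn]

theorem ev_der_pc (s : Slot) (k : Fin 3) (p : Pol) :
    ev (s.der k (pc p)) = ev (pc (-(s.der (flipK k) p))) := by
  funext x
  simp only [map_neg, Pi.neg_apply, ev_pc]
  fin_cases k
  · show ev (s.der 0 (pc p)) x = -conj (ev (s.der 1 p) x)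
    simp [der_zero_apply, der_one_apply, ev_rder_pc, conj_sgn, map_ofNat]
    ring
  · show ev (s.der 1 (pc p)) x = -conj (ev (s.der 0 p) x)
    simp [der_zero_apply, der_one_apply, ev_rder_pc, conj_sgn, map_ofNat]
    ring
  · show ev (s.der 2 (pc p)) x = -conj (ev (s.der 2 p) x)
    simp [der_two_apply, ev_rder_pc]

theorem ev_cas_pc (s : Slot) (p : Pol) : ev (s.triple.cas (pc p)) = ev (pc (s.triple.cas p)) := by
  have h2 : ev (s.der 2 (s.der 2 (pc p))) = ev (pc (s.der 2 (s.der 2 p))) := by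
    rw [s.ev_der_congr 2 (s.ev_der_pc 2 p), s.ev_der_pc 2]
    simp [flipK]
  have h10 : ev (s.der 1 (s.der 0 (pc p))) = ev (pc (s.der 0 (s.der 1 p))) := by
    rw [s.ev_der_congr 1 (s.ev_der_pc 0 p), s.ev_der_pc 1]
    simp [flipK]
  funext x
  simp only [cas_triple_apply, map_add, map_smul, Pi.add_apply, Pi.smul_apply, h2, h10,
    s.ev_der_pc 2 p, ev_pc, map_neg, Pi.neg_apply, smul_eq_mul]
  have he : s.der 0 (s.der 1 p) = s.der 1 (s.der 0 p) + s.der 2 p := by
    have := congrArg (fun D : Derivation ℂ Pol Pol => D p) s.der_ef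
    rw [← this]
    simp [Derivation.commutator_apply]
  simp [he, flipK, map_ofNat]
  ring

end Slot

/-- The opposite index inside a block. -/
def rev {V : Blk} (q : Ix V) : Ix V := ((q.1.1.rev, q.1.2.rev), q.2.rev)

theorem rev_rev {V : Blk} (q : Ix V) : rev (rev q) = q := by
  simp [rev]

/-- The opposite state inside a block. -/
def oppFin (V : Blk) (m : Fin V.dim) : Fin V.dim := (idx V).symm (rev (idx V m))

theorem oppFin_oppFin (V : Blk) (m : Fin V.dim) : oppFin V (oppFin V m) = m := by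
  rw [oppFin, oppFin, Equiv.apply_symm_apply, rev_rev, Equiv.symm_apply_apply]

/-- The opposite state. -/
def opp (i : St) : St := ⟨i.1, oppFin i.1 i.2⟩

theorem opp_opp (i : St) : opp (opp i) = i := by
  obtain ⟨V, m⟩ := i
  exact congrArg (Sigma.mk V) (oppFin_oppFin V m)

theorem ev_Z_H (i : St) (r : Fin 3) : ev ((slotOf r).der 2 (pc (Z i))) =
    ev ((-(((![i.1.la, i.1.lb, i.1.lc] r : ℕ) : ℝ) - 2 * (pos (idx i.1 i.2) r : ℕ) : ℝ) : ℂ) •
      pc (Z i)) := by
  rw [Slot.ev_der_pc]
  funext x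
  simp [Z, Slot.flipK, bvec_H, ev_pc, map_ofNat]
  ring

theorem ev_Z_cas (i : St) (r : Fin 3) : ev ((slotOf r).triple.cas (pc (Z i))) =
    ev ((Blk.cas (![i.1.la, i.1.lb, i.1.lc] r) : ℂ) • pc (Z i)) := by
  rw [Slot.ev_cas_pc]
  funext x
  simp [Z, bvec_cas, ev_pc]
  ring

theorem cf_pc_Z {i j : St} (h : j ≠ opp i) : cf (pc (Z i)) j = 0 := by
  obtain ⟨V, m⟩ := i
  obtain ⟨W, n⟩ := j
  by_cases hV : W = V
  · subst hV
    have hne : ∃ r, (pos (idx W n) r : ℕ) + pos (idx W m) r ≠ ![W.la, W.lb, W.lc] r := by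
      by_contra hall
      push Not at hall
      refine h ?_
      show (⟨W, n⟩ : St) = ⟨W, oppFin W m⟩
      refine congrArg (Sigma.mk W) ((idx W).injective ?_)
      rw [oppFin, Equiv.apply_symm_apply]
      refine pos_injective (funext fun r => ?_)
      have := hall r
      fin_cases r <;> simp [pos, rev, Fin.val_rev] at this ⊢ <;> omega
    obtain ⟨r, hr⟩ := hne
    have e := Slot.ip_der_two (slotOf r) (Z ⟨W, n⟩) (pc (Z ⟨W, m⟩))
    rw [ip_congr rfl (evN_congr (ev_Z_H ⟨W, m⟩ r)), ip_smul_right] at e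
    simp only [Z, Derivation.map_smul, bvec_H] at e
    rw [smul_comm, ip_smul_left, Complex.conj_ofReal] at e
    refine (mul_eq_zero.1 (?_ : (((((![W.la, W.lb, W.lc] r : ℕ) : ℝ) -
      2 * (pos (idx W n) r : ℕ) : ℝ) : ℂ) - ((-((((![W.la, W.lb, W.lc] r : ℕ) : ℝ) -
      2 * (pos (idx W m) r : ℕ) : ℝ)) : ℝ) : ℂ)) * cf (pc (Z ⟨W, m⟩)) ⟨W, n⟩ = 0)).resolve_left ?_
    · rw [cf]
      simp only [Z]
      push_cast at e ⊢
      linear_combination e
    · rw [sub_eq_zero, Complex.ofReal_inj]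
      intro e2
      refine hr ?_
      have : ((pos (idx W n) r : ℕ) : ℝ) + (pos (idx W m) r : ℕ) = (![W.la, W.lb, W.lc] r : ℕ) := by
        linarith
      exact_mod_cast this
  · obtain ⟨r, hr⟩ : ∃ r, (![W.la, W.lb, W.lc] : Fin 3 → ℕ) r ≠ ![V.la, V.lb, V.lc] r := by
      refine Function.ne_iff.1 fun e => hV (Subtype.ext ?_)
      exact Prod.ext (congrFun e 0 : W.la = V.la)
        (Prod.ext (congrFun e 1 : W.lb = V.lb) (congrFun e 2 : W.lc = V.lc))
    have e := Slot.ip_cas (slotOf r) (Z ⟨W, n⟩) (pc (Z ⟨V, m⟩))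
    rw [ip_congr rfl (evN_congr (ev_Z_cas ⟨V, m⟩ r)), ip_smul_right] at e
    simp only [Z, map_smul, bvec_cas] at e
    rw [smul_comm, ip_smul_left, Complex.conj_ofReal] at e
    refine (mul_eq_zero.1 (?_ : ((Blk.cas (![W.la, W.lb, W.lc] r) : ℂ) -
      (Blk.cas (![V.la, V.lb, V.lc] r) : ℂ)) * cf (pc (Z ⟨V, m⟩)) ⟨W, n⟩ = 0)).resolve_left ?_
    · rw [cf]
      simp only [Z]
      linear_combination e
    · rw [sub_eq_zero, Complex.ofReal_inj]
      exact fun e2 => hr (cas_injective e2)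

/-- The phase of the conjugate. -/
def phase (i : St) : ℂ := cf (pc (Z i)) (opp i)

theorem evN_pc_Z (i : St) : evN (pc (Z i)) = phase i • evN (Z (opp i)) := by
  obtain ⟨s, hs, e⟩ := expansion (pc (Z i))
  rw [e]
  by_cases hi : opp i ∈ s
  · rw [Finset.sum_eq_single_of_mem (opp i) hi fun j _ hj => by rw [cf_pc_Z hj, zero_smul]]
    rfl
  · rw [Finset.sum_eq_zero fun j hj => by
      rw [cf_pc_Z (fun h => hi (h ▸ hj)), zero_smul], phase, hs _ hi, zero_smul]

theorem norm_phase (i : St) : conj (phase i) * phase i = 1 := by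
  have h : ip (pc (Z i)) (pc (Z i)) = conj (phase i) * phase i := by
    rw [ip_congr (show evN (pc (Z i)) = evN (phase i • Z (opp i)) by rw [evN_pc_Z, map_smul])
      (show evN (pc (Z i)) = evN (phase i • Z (opp i)) by rw [evN_pc_Z, map_smul]),
      ip_smul_left, ip_smul_right, ip_Z, if_pos rfl, mul_one]
  rw [← h, show ip (pc (Z i)) (pc (Z i)) = ip (Z i) (Z i) from ?_, ip_Z, if_pos rfl]
  simp only [ip, evN_pc, RCLike.conj_conj, mul_comm]

theorem phase_opp (i : St) : phase (opp i) = phase i := by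
  have h : ∀ x, evN (Z i) x = conj (phase i) * (phase (opp i) * evN (Z i) x) := by
    intro x
    have h1 := congrFun (evN_pc_Z i) x
    have h2 := congrFun (evN_pc_Z (opp i)) x
    rw [opp_opp, evN_pc] at h2
    rw [evN_pc] at h1
    simp only [Pi.smul_apply, smul_eq_mul] at h1 h2
    rw [← h2, ← map_mul, ← h1, RCLike.conj_conj]
  obtain ⟨x, hx⟩ : ∃ x, evN (Z i) x ≠ 0 := by
    by_contra hall
    push Not at hall
    simpa [ip_mem_K_right (Z i) (mem_K.2 hall)] using ip_Z i i
  have h1 : conj (phase i) * phase (opp i) = 1 :=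
    mul_right_cancel₀ hx (by rw [one_mul, mul_assoc, ← h x])
  calc phase (opp i) = conj (phase i) * phase i * phase (opp i) := by rw [norm_phase, one_mul]
    _ = phase i * (conj (phase i) * phase (opp i)) := by ring
    _ = phase i := by rw [h1, mul_one]

end

end Vale.Agent.P225.Sphere
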