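import Vale.Agent.P225.Sphere.Poly

/-!
Polynomials in the entries as functions on `ℝ⁴ × ℝ⁴`: the derivations are the derivatives along the
six linear invariant fields of each factor, and the functions are smooth.
-/

namespace Vale.Agent.P225.Sphere

open MvPolynomial Topology

noncomputable section

/-- `ℝ⁴`. -/
abbrev R4 := Fin 4 → ℝ

/-- `ℝ⁴ × ℝ⁴`. -/
abbrev R44 := R4 × R4

/-- The matrix `((z, w), (-w̄, z̄))` of `z = q₀ + i q₁`, `w = q₂ + i q₃`. -/
def mat (q : R4) : Fin 2 → Fin 2 → ℂ :=
  ![![⟨q 0, q 1⟩, ⟨q 2, q 3⟩], ![⟨-q 2, q 3⟩, ⟨q 0, -q 1⟩]]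

/-- The entries at a point. -/
def ent (x : R44) (v : Var) : ℂ := mat (![x.1, x.2] v.1) v.2.1 v.2.2

/-- The entries as linear forms. -/
def entCLM (v : Var) : R44 →L[ℝ] ℂ :=
  LinearMap.toContinuousLinearMap
    { toFun := fun x => ent x v
      map_add' := fun x y => by
        obtain ⟨f, i, j⟩ := v
        fin_cases f <;> fin_cases i <;> fin_cases j <;>
          simp [ent, mat, Complex.ext_iff] <;> ring
      map_smul' := fun c x => by
        obtain ⟨f, i, j⟩ := v
        fin_cases f <;> fin_cases i <;> fin_cases j <;> simp [ent, mat, Complex.ext_iff] }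

theorem entCLM_apply (v : Var) (x : R44) : entCLM v x = ent x v := rfl

/-- Evaluation. -/
def ev : Pol →ₗ[ℂ] R44 → ℂ where
  toFun p x := MvPolynomial.eval (ent x) p
  map_add' p q := by ext x; simp
  map_smul' c p := by ext x; simp [smul_eq_C_mul]

theorem ev_apply (p : Pol) (x : R44) : ev p x = MvPolynomial.eval (ent x) p := rfl

theorem ev_mul (p q : Pol) (x : R44) : ev (p * q) x = ev p x * ev q x := by simp [ev_apply]

theorem ev_X (v : Var) (x : R44) : ev (X v) x = ent x v := by simp [ev_apply]

theorem contDiff_ev (p : Pol) {n : WithTop ℕ∞} : ContDiff ℝ n (ev p) := by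
  induction p using MvPolynomial.induction_on with
  | C c =>
    rw [show ev (C c) = fun _ => c from funext fun x => by simp [ev_apply]]
    exact contDiff_const
  | add p q hp hq => rw [map_add]; exact hp.add hq
  | mul_X p v hp =>
    rw [show ev (p * X v) = fun x => ev p x * entCLM v x from
      funext fun x => by rw [ev_mul, ev_X, entCLM_apply]]
    exact hp.mul (entCLM v).contDiff

theorem continuous_ev (p : Pol) : Continuous (ev p) := (contDiff_ev p (n := 0)).continuous

/-- Right multiplication by `i, j, k`. -/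
def mulR (u : Fin 3) (q : R4) : R4 :=
  ![![-q 1, q 0, q 3, -q 2], ![-q 2, -q 3, q 0, q 1], ![-q 3, q 2, -q 1, q 0]] u

/-- Left multiplication by `i, j, k`. -/
def mulL (u : Fin 3) (q : R4) : R4 :=
  ![![-q 1, q 0, -q 3, q 2], ![-q 2, q 3, q 0, -q 1], ![-q 3, -q 2, q 1, q 0]] u

namespace Slot

/-- The field of a slot. -/
def field (s : Slot) (u : Fin 3) (x : R44) : R44 :=
  match s with
  | .R f => if f = 0 then (mulR u x.1, 0) else (0, mulR u x.2)
  | .L f => if f = 0 then (mulL u x.1, 0) else (0, mulL u x.2)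
  | .D => (mulR u x.1, mulR u x.2)

/-- The sign of the second unit. -/
def sgn : Slot → ℂ
  | .L _ => -1
  | _ => 1

/-- The derivation of a real translation field. -/
def rder (s : Slot) (u : Fin 3) : Derivation ℂ Pol Pol :=
  ![Complex.I • s.der 2, s.sgn • (s.der 0 - s.der 1), Complex.I • (s.der 0 + s.der 1)] u

/-- Combination of the three values. -/
def comb (σ : ℂ) (u : Fin 3) (d : Fin 3 → ℂ) : ℂ :=
  ![Complex.I * d 2, σ * (d 0 - d 1), Complex.I * (d 0 + d 1)] u

theorem ev_rder (s : Slot) (u : Fin 3) (p : Pol) (x : R44) :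
    ev (s.rder u p) x = comb s.sgn u fun k => ev (s.der k p) x := by
  fin_cases u <;> simp [rder, comb, mul_add]

theorem ev_der_X (s : Slot) (k : Fin 3) (v : Var) (x : R44) :
    ev (s.der k (X v)) x =
      if s.act v.1 then coef k (s.get v) * ent x (s.put v (tgt k (s.get v))) else 0 := by
  rw [der_X, img]; split_ifs <;> simp [ev_X]

theorem mat_mulR (u : Fin 3) (q : R4) (i j : Fin 2) :
    mat (mulR u q) i j = comb 1 u fun k => coef k j * mat q i (tgt k j) := by
  fin_cases u <;> fin_cases i <;> fin_cases j <;>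
    simp [comb, mulR, coef, tgt, mat, Complex.ext_iff]

theorem mat_mulL (u : Fin 3) (q : R4) (i j : Fin 2) :
    mat (mulL u q) i j = comb (-1) u fun k => coef k i * mat q (tgt k i) j := by
  fin_cases u <;> fin_cases i <;> fin_cases j <;>
    simp [comb, mulL, coef, tgt, mat, Complex.ext_iff]

theorem comb_zero (σ : ℂ) (u : Fin 3) : comb σ u (fun _ => 0) = 0 := by
  fin_cases u <;> simp [comb]

theorem mat_zero : mat (0 : R4) = 0 := by
  funext i j; fin_cases i <;> fin_cases j <;> simp [mat, Complex.ext_iff]

theorem ev_rder_X (s : Slot) (u : Fin 3) (x : R44) (v : Var) :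
    ev (s.rder u (X v)) x = ent (s.field u x) v := by
  rw [ev_rder]; simp only [ev_der_X]
  obtain ⟨g, i, j⟩ := v
  cases s with
  | R f => fin_cases f <;> fin_cases g <;>
      simp [sgn, field, act, get, put, ent, mat_mulR, comb_zero, mat_zero]
  | L f => fin_cases f <;> fin_cases g <;>
      simp [sgn, field, act, get, put, ent, mat_mulL, comb_zero, mat_zero]
  | D => fin_cases g <;> simp [sgn, field, act, get, put, ent, mat_mulR]

/-- The derivations differentiate along the fields. -/
theorem fderiv_ev (s : Slot) (u : Fin 3) (p : Pol) (x : R44) :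
    fderiv ℝ (ev p) x (s.field u x) = ev (s.rder u p) x := by
  induction p using MvPolynomial.induction_on with
  | C c =>
    rw [show ev (C c) = fun _ => c from funext fun x => by simp [ev_apply]]
    simp [← algebraMap_eq]
  | add p q hp hq =>
    rw [map_add, fderiv_add ((contDiff_ev p (n := 1)).differentiable one_ne_zero x)
      ((contDiff_ev q (n := 1)).differentiable one_ne_zero x)]
    simp [hp, hq]
  | mul_X p v hp =>
    rw [show ev (p * X v) = fun y => ev p y * entCLM v y from
      funext fun y => by rw [ev_mul, ev_X, entCLM_apply]]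
    rw [fderiv_fun_mul ((contDiff_ev p (n := 1)).differentiable one_ne_zero x)
      (entCLM v).differentiableAt, ContinuousLinearMap.fderiv]
    simp [hp, entCLM_apply, ev_mul, ev_X, ev_rder_X, Derivation.leibniz]

theorem hasDerivAt_ev {s : Slot} {u : Fin 3} (p : Pol) {c : ℝ → R44} {t : ℝ}
    (hc : HasDerivAt c (s.field u (c t)) t) :
    HasDerivAt (fun t => ev p (c t)) (ev (s.rder u p) (c t)) t := by
  rw [← fderiv_ev]
  exact ((contDiff_ev p (n := 1)).differentiable one_ne_zero (c t)).hasFDerivAt.comp_hasDerivAt t hc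

end Slot

attribute [irreducible] ev

end

end Vale.Agent.P225.Sphere
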