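import Vale.Agent.P225.Sphere.Eval

/-!
The product of two unit quaternion groups with its Haar probability measure: translations are
rotations of `ℝ⁴ × ℝ⁴` along the invariant fields, so the derivations integrate to zero.
-/

namespace Vale.Agent.P225.Sphere

open MvPolynomial MeasureTheory Topology
open scoped Quaternion

noncomputable section

/-- Unit quaternions. -/
abbrev S3 := Metric.sphere (0 : ℍ[ℝ]) 1

/-- The product group. -/
abbrev N2 := S3 × S3

instance : MeasurableSpace S3 := borel S3
instance : BorelSpace S3 := ⟨rfl⟩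

/-- The coordinates of a quaternion. -/
def crd (q : ℍ[ℝ]) : R4 := ![q.re, q.imI, q.imJ, q.imK]

/-- The coordinates of a point. -/
def crd2 (x : N2) : R44 := (crd x.1, crd x.2)

theorem continuous_crd : Continuous crd :=
  continuous_pi fun i => by
    fin_cases i <;> simp [crd] <;>
      first | exact Quaternion.continuous_re | exact Quaternion.continuous_imI |
        exact Quaternion.continuous_imJ | exact Quaternion.continuous_imK

theorem continuous_crd2 : Continuous crd2 := by
  unfold crd2
  exact (continuous_crd.comp (continuous_subtype_val.comp continuous_fst)).prodMk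
    (continuous_crd.comp (continuous_subtype_val.comp continuous_snd))

/-- The one-parameter subgroups as quaternions. -/
def rotq (u : Fin 3) (t : ℝ) : ℍ[ℝ] :=
  ![⟨Real.cos t, Real.sin t, 0, 0⟩, ⟨Real.cos t, 0, Real.sin t, 0⟩,
    ⟨Real.cos t, 0, 0, Real.sin t⟩] u

/-- One-parameter subgroups. -/
def rot (u : Fin 3) (t : ℝ) : S3 :=
  ⟨rotq u t, by
    rw [mem_sphere_zero_iff_norm, ← sq_eq_sq₀ (norm_nonneg _) zero_le_one, sq,
      ← Quaternion.normSq_eq_norm_mul_self, Quaternion.normSq_def']
    fin_cases u <;> simp [rotq]⟩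

@[simp]
theorem rotq_re (u : Fin 3) (t : ℝ) : (rotq u t).re = Real.cos t := by fin_cases u <;> rfl

@[simp]
theorem rotq_imI (u : Fin 3) (t : ℝ) : (rotq u t).imI = if u = 0 then Real.sin t else 0 := by
  fin_cases u <;> rfl

@[simp]
theorem rotq_imJ (u : Fin 3) (t : ℝ) : (rotq u t).imJ = if u = 1 then Real.sin t else 0 := by
  fin_cases u <;> rfl

@[simp]
theorem rotq_imK (u : Fin 3) (t : ℝ) : (rotq u t).imK = if u = 2 then Real.sin t else 0 := by
  fin_cases u <;> rfl

theorem crd_mul_rotq (q : ℍ[ℝ]) (u : Fin 3) (t : ℝ) :
    crd (q * rotq u t) = Real.cos t • crd q + Real.sin t • mulR u (crd q) := by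
  funext i
  fin_cases u <;> fin_cases i <;> simp [crd, mulR] <;> ring

theorem crd_rotq_mul (q : ℍ[ℝ]) (u : Fin 3) (t : ℝ) :
    crd (rotq u t * q) = Real.cos t • crd q + Real.sin t • mulL u (crd q) := by
  funext i
  fin_cases u <;> fin_cases i <;> simp [crd, mulL] <;> ring

theorem mulR_comb (u : Fin 3) (a b : ℝ) (q : R4) :
    mulR u (a • q + b • mulR u q) = a • mulR u q - b • q := by
  funext i
  fin_cases u <;> fin_cases i <;> simp [mulR] <;> ring

theorem mulL_comb (u : Fin 3) (a b : ℝ) (q : R4) :
    mulL u (a • q + b • mulL u q) = a • mulL u q - b • q := by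
  funext i
  fin_cases u <;> fin_cases i <;> simp [mulL] <;> ring

namespace Slot

/-- The translation curve of a slot. -/
def move (s : Slot) (u : Fin 3) (t : ℝ) (x : N2) : N2 :=
  match s with
  | .R f => if f = 0 then (x.1 * rot u t, x.2) else (x.1, x.2 * rot u t)
  | .L f => if f = 0 then (rot u t * x.1, x.2) else (x.1, rot u t * x.2)
  | .D => (x.1 * rot u t, x.2 * rot u t)

/-- A translation moves along its field. -/
theorem hasDerivAt_move (s : Slot) (u : Fin 3) (x : N2) (t : ℝ) :
    HasDerivAt (fun t => crd2 (s.move u t x)) (s.field u (crd2 (s.move u t x))) t := by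
  have key : ∀ v w : R4, HasDerivAt (fun t => Real.cos t • v + Real.sin t • w)
      (Real.cos t • w - Real.sin t • v) t := by
    intro v w
    have h := ((Real.hasDerivAt_cos t).smul_const v).add ((Real.hasDerivAt_sin t).smul_const w)
    exact h.congr_deriv (by module)
  cases s with
  | R f =>
    fin_cases f <;>
      simp only [move, field, crd2, Fin.zero_eta, Fin.mk_one, ↓reduceIte, one_ne_zero,
        rot, Metric.unitSphere.coe_mul, crd_mul_rotq, mulR_comb]
    · exact (key _ _).prodMk (hasDerivAt_const _ _)
    · exact (hasDerivAt_const _ _).prodMk (key _ _)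
  | L f =>
    fin_cases f <;>
      simp only [move, field, crd2, Fin.zero_eta, Fin.mk_one, ↓reduceIte, one_ne_zero,
        rot, Metric.unitSphere.coe_mul, crd_rotq_mul, mulL_comb]
    · exact (key _ _).prodMk (hasDerivAt_const _ _)
    · exact (hasDerivAt_const _ _).prodMk (key _ _)
  | D =>
    simp only [move, field, crd2, rot, Metric.unitSphere.coe_mul, crd_mul_rotq, mulR_comb]
    exact (key _ _).prodMk (key _ _)

theorem continuous_move (s : Slot) (u : Fin 3) (t : ℝ) : Continuous (s.move u t) := by
  cases s with
  | R f => unfold move; dsimp only; split_ifs <;> fun_prop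
  | L f => unfold move; dsimp only; split_ifs <;> fun_prop
  | D => unfold move; dsimp only; fun_prop

theorem move_zero (s : Slot) (u : Fin 3) (x : N2) : s.move u 0 x = x := by
  have h : rot u 0 = 1 := by ext1; ext <;> simp [rot]
  cases s <;> simp [move, h]

end Slot

/-- The Haar probability measure. -/
def haarN : Measure N2 := Measure.haarMeasure ⊤

instance : IsProbabilityMeasure haarN :=
  ⟨by rw [haarN, ← TopologicalSpace.PositiveCompacts.coe_top, Measure.haarMeasure_self]⟩

instance : Measure.IsHaarMeasure haarN := Measure.isHaarMeasure_haarMeasure _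

instance : Measure.IsMulRightInvariant haarN := by
  refine ⟨fun g => ?_⟩
  have : IsProbabilityMeasure (haarN.map (· * g)) :=
    Measure.isProbabilityMeasure_map (measurable_mul_const g).aemeasurable
  exact Measure.isHaarMeasure_eq_of_isProbabilityMeasure _ _

theorem integral_move (s : Slot) (u : Fin 3) (t : ℝ) (f : N2 → ℂ) :
    ∫ x, f (s.move u t x) ∂haarN = ∫ x, f x ∂haarN := by
  cases s with
  | R i =>
    fin_cases i
    · simpa [Slot.move, Prod.mul_def] using integral_mul_right_eq_self (μ := haarN) f (rot u t, 1)
    · simpa [Slot.move, Prod.mul_def] using integral_mul_right_eq_self (μ := haarN) f (1, rot u t)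
  | L i =>
    fin_cases i
    · simpa [Slot.move, Prod.mul_def] using integral_mul_left_eq_self (μ := haarN) f (rot u t, 1)
    · simpa [Slot.move, Prod.mul_def] using integral_mul_left_eq_self (μ := haarN) f (1, rot u t)
  | D => simpa [Slot.move, Prod.mul_def] using integral_mul_right_eq_self (μ := haarN) f (rot u t, rot u t)

/-- A polynomial on the group. -/
def evN : Pol →ₗ[ℂ] N2 → ℂ :=
  (LinearMap.funLeft ℂ ℂ crd2).comp ev

theorem evN_apply (p : Pol) (x : N2) : evN p x = ev p (crd2 x) := rfl

theorem evN_mul (p q : Pol) (x : N2) : evN (p * q) x = evN p x * evN q x := ev_mul p q _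

theorem continuous_evN (p : Pol) : Continuous (evN p) := (continuous_ev p).comp continuous_crd2

theorem integrable_evN (p : Pol) : Integrable (evN p) haarN :=
  (continuous_evN p).integrable_of_hasCompactSupport (HasCompactSupport.of_compactSpace _)

theorem integral_eq_zero_of_flow (m : ℝ → N2 → N2) (hm : ∀ t, Continuous (m t)) (g g' : N2 → ℂ)
    (hg : Continuous g) (hg' : Continuous g')
    (hd : ∀ a t, HasDerivAt (fun t => g (m t a)) (g' (m t a)) t)
    (hi : ∀ t (f : N2 → ℂ), ∫ x, f (m t x) ∂haarN = ∫ x, f x ∂haarN) :
    ∫ x, g' x ∂haarN = 0 := by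
  obtain ⟨B, hB⟩ := isCompact_univ.exists_bound_of_continuousOn hg'.continuousOn
  have h := (hasDerivAt_integral_of_dominated_loc_of_deriv_le (μ := haarN)
    (F := fun t x => g (m t x)) (F' := fun t x => g' (m t x)) (x₀ := 0) Filter.univ_mem
    (Filter.Eventually.of_forall fun t => (hg.comp (hm t)).aestronglyMeasurable)
    ((hg.comp (hm 0)).integrable_of_hasCompactSupport (HasCompactSupport.of_compactSpace _))
    (hg'.comp (hm 0)).aestronglyMeasurable
    (Filter.Eventually.of_forall fun a t _ => hB _ (Set.mem_univ _)) (integrable_const B)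
    (Filter.Eventually.of_forall fun a t _ => hd a t)).2
  simp only [hi] at h
  exact h.unique (hasDerivAt_const _ _)

/-- The derivations integrate to zero. -/
theorem integral_rder (s : Slot) (u : Fin 3) (p : Pol) : ∫ x, evN (s.rder u p) x ∂haarN = 0 :=
  integral_eq_zero_of_flow (s.move u) (s.continuous_move u) (evN p) (evN (s.rder u p))
    (continuous_evN p) (continuous_evN _)
    (fun a t => Slot.hasDerivAt_ev p (s.hasDerivAt_move u a t)) (fun t f => integral_move s u t f)

end

end Vale.Agent.P225.Sphere
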