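import Vale.Agent.P225.Sphere.Haar

/-!
Conjugation of polynomials, the inner product of their restrictions to the group, the adjoints of
the operators and the polynomials vanishing on the group.
-/

namespace Vale.Agent.P225.Sphere

open MvPolynomial MeasureTheory
open scoped ComplexConjugate

noncomputable section

/-- The other index. -/
def oth : Fin 2 → Fin 2 := ![1, 0]

/-- Conjugation of the polynomial functions. -/
def pc : Pol →+* Pol :=
  MvPolynomial.eval₂Hom (MvPolynomial.C.comp (starRingEnd ℂ)) fun v =>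
    if v.2.1 = v.2.2 then X (v.1, oth v.2.1, oth v.2.2) else -X (v.1, oth v.2.1, oth v.2.2)

theorem ev_pc (p : Pol) (x : R44) : ev (pc p) x = conj (ev p x) := by
  induction p using MvPolynomial.induction_on with
  | C c => simp [pc, ev_apply]
  | add p q hp hq => simp only [map_add, Pi.add_apply, hp, hq]
  | mul_X p v hp =>
    rw [map_mul, ev_mul, ev_mul, map_mul, hp, ev_X]
    congr 1
    obtain ⟨f, i, j⟩ := v
    fin_cases f <;> fin_cases i <;> fin_cases j <;>
      simp [pc, oth, ev_apply, ent, mat, Complex.ext_iff]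

theorem evN_pc (p : Pol) (x : N2) : evN (pc p) x = conj (evN p x) := ev_pc p _

theorem fderiv_conj (g : R44 → ℂ) (hg : Differentiable ℝ g) (x v : R44) :
    fderiv ℝ (fun y => conj (g y)) x v = conj (fderiv ℝ g x v) := by
  have h := (Complex.conjCLE.toContinuousLinearMap.hasFDerivAt.comp x (hg x).hasFDerivAt).fderiv
  exact (congrArg (fun L : R44 →L[ℝ] ℂ => L v) h).trans rfl

theorem Slot.ev_rder_pc (s : Slot) (u : Fin 3) (p : Pol) (x : R44) :
    ev (s.rder u (pc p)) x = conj (ev (s.rder u p) x) := by
  rw [← s.fderiv_ev, ← s.fderiv_ev, show ev (pc p) = fun y => conj (ev p y) from funext (ev_pc p),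
    fderiv_conj _ ((contDiff_ev p (n := 1)).differentiable one_ne_zero)]

/-- The inner product of two restrictions. -/
def ip (p q : Pol) : ℂ := ∫ x, conj (evN p x) * evN q x ∂haarN

theorem ip_eq (p q : Pol) : ip p q = ∫ x, evN (pc p * q) x ∂haarN :=
  integral_congr_ae (Filter.Eventually.of_forall fun x => by simp [evN_mul, evN_pc])

theorem ip_add_right (p q r : Pol) : ip p (q + r) = ip p q + ip p r := by
  simp only [ip_eq, mul_add, map_add, Pi.add_apply]
  exact integral_add (integrable_evN _) (integrable_evN _)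

theorem ip_smul_right (c : ℂ) (p q : Pol) : ip p (c • q) = c * ip p q := by
  simp only [ip_eq, mul_smul_comm, map_smul, Pi.smul_apply, smul_eq_mul, integral_const_mul]

theorem ip_conj (p q : Pol) : conj (ip p q) = ip q p := by
  rw [ip, ← integral_conj]
  exact integral_congr_ae (Filter.Eventually.of_forall fun x => by simp [mul_comm])

/-- `ip p` as a linear form. -/
def ipR (p : Pol) : Pol →ₗ[ℂ] ℂ where
  toFun := ip p
  map_add' := ip_add_right p
  map_smul' c q := by simpa using ip_smul_right c p q

theorem ipR_apply (p q : Pol) : ipR p q = ip p q := rfl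

theorem ip_sum_right {ι : Type*} (p : Pol) (s : Finset ι) (f : ι → Pol) :
    ip p (∑ i ∈ s, f i) = ∑ i ∈ s, ip p (f i) := map_sum (ipR p) f s

theorem ip_smul_left (c : ℂ) (p q : Pol) : ip (c • p) q = conj c * ip p q := by
  rw [← ip_conj, ip_smul_right, map_mul, ip_conj]

theorem ip_add_left (p q r : Pol) : ip (p + q) r = ip p r + ip q r := by
  rw [← ip_conj, ip_add_right, map_add, ip_conj, ip_conj]

theorem ip_self (p : Pol) : ip p p = ((∫ x, Complex.normSq (evN p x) ∂haarN : ℝ) : ℂ) := by
  rw [ip, ← integral_complex_ofReal]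
  exact integral_congr_ae (Filter.Eventually.of_forall fun x => by
    simp [Complex.normSq_eq_conj_mul_self])

/-- The polynomials vanishing on the group. -/
def K : Submodule ℂ Pol := LinearMap.ker evN

theorem mem_K {p : Pol} : p ∈ K ↔ ∀ x, evN p x = 0 := by
  rw [K, LinearMap.mem_ker, funext_iff]; rfl

theorem ip_self_eq_zero {p : Pol} : ip p p = 0 ↔ p ∈ K := by
  constructor
  · intro h
    rw [ip_self, Complex.ofReal_eq_zero] at h
    rw [mem_K]
    by_contra hne
    push Not at hne
    obtain ⟨x, hx⟩ := hne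
    have : 0 < ∫ x, Complex.normSq (evN p x) ∂haarN :=
      (Complex.continuous_normSq.comp (continuous_evN p)).integral_pos_of_hasCompactSupport_nonneg_nonzero
        (HasCompactSupport.of_compactSpace _) (fun y => Complex.normSq_nonneg _)
        (x := x) (fun h0 => hx (Complex.normSq_eq_zero.1 h0))
    exact this.ne' h
  · intro h
    simp [ip, mem_K.1 h]

theorem mul_mem_K {p : Pol} (h : p ∈ K) (q : Pol) : p * q ∈ K :=
  mem_K.2 fun x => by rw [evN_mul, mem_K.1 h x, zero_mul]

theorem det_sub_one_mem_K (f : Fin 2) :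
    X (f, 0, 0) * X (f, 1, 1) - X (f, 0, 1) * X (f, 1, 0) - 1 ∈ K := by
  refine mem_K.2 fun x => ?_
  have h : ∀ q : S3, (q : Quaternion ℝ).re ^ 2 + (q : Quaternion ℝ).imI ^ 2 +
      (q : Quaternion ℝ).imJ ^ 2 + (q : Quaternion ℝ).imK ^ 2 = 1 := fun q => by
    rw [← Quaternion.normSq_def', Quaternion.normSq_eq_norm_mul_self,
      mem_sphere_zero_iff_norm.1 q.2, one_mul]
  have h1 := h x.1
  have h2 := h x.2
  fin_cases f <;> simp [evN_apply, ev_apply, ent, mat, crd, crd2, Complex.ext_iff] <;>
    constructor <;> nlinarith [h1, h2]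

namespace Slot

theorem sgn_sq (s : Slot) : s.sgn * s.sgn = 1 := by cases s <;> simp [sgn]

theorem der_eq_rder (s : Slot) (k : Fin 3) : s.der k =
    ![(1 / 2 : ℂ) • (s.sgn • s.rder 1 - Complex.I • s.rder 2),
      (1 / 2 : ℂ) • (-(s.sgn • s.rder 1) - Complex.I • s.rder 2),
      -(Complex.I • s.rder 0)] k := by
  refine Derivation.ext fun p => ?_
  fin_cases k <;> simp [rder, smul_smul, sgn_sq, Complex.I_mul_I, smul_sub, smul_add] <;> module

theorem rder_mem_K (s : Slot) (u : Fin 3) {p : Pol} (h : p ∈ K) : s.rder u p ∈ K := by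
  refine mem_K.2 fun x => ?_
  have hd := Slot.hasDerivAt_ev p (s.hasDerivAt_move u x 0)
  have h0 : (fun t => ev p (crd2 (s.move u t x))) = fun _ => (0 : ℂ) :=
    funext fun t => mem_K.1 h _
  rw [h0, s.move_zero] at hd
  exact hd.unique (hasDerivAt_const _ _)

theorem der_mem_K (s : Slot) (k : Fin 3) {p : Pol} (h : p ∈ K) : s.der k p ∈ K := by
  rw [der_eq_rder]
  have h0 := s.rder_mem_K 0 h
  have h1 := s.rder_mem_K 1 h
  have h2 := s.rder_mem_K 2 h
  fin_cases k
  · exact K.smul_mem _ (K.sub_mem (K.smul_mem _ h1) (K.smul_mem _ h2))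
  · exact K.smul_mem _ (K.sub_mem (K.neg_mem (K.smul_mem _ h1)) (K.smul_mem _ h2))
  · exact K.neg_mem (K.smul_mem _ h0)

theorem der_zero_apply (s : Slot) (p : Pol) :
    s.der 0 p = (s.sgn / 2) • s.rder 1 p + (-Complex.I / 2) • s.rder 2 p := by
  rw [der_eq_rder]; simp; module

theorem der_one_apply (s : Slot) (p : Pol) :
    s.der 1 p = (-s.sgn / 2) • s.rder 1 p + (-Complex.I / 2) • s.rder 2 p := by
  rw [der_eq_rder]; simp; module

theorem der_two_apply (s : Slot) (p : Pol) : s.der 2 p = (-Complex.I) • s.rder 0 p := by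
  rw [der_eq_rder]; simp

/-- The real fields are skew. -/
theorem ip_rder (s : Slot) (u : Fin 3) (p q : Pol) :
    ip (s.rder u p) q = -ip p (s.rder u q) := by
  have h := integral_rder s u (pc p * q)
  rw [eq_neg_iff_add_eq_zero, ← h, ip, ip_eq,
    ← integral_add _ (integrable_evN _)]
  · refine integral_congr_ae (Filter.Eventually.of_forall fun x => ?_)
    simp only [Derivation.leibniz, smul_eq_mul, map_add, Pi.add_apply, evN_mul]
    rw [show evN (s.rder u (pc p)) x = conj (evN (s.rder u p) x) from s.ev_rder_pc u p _]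
    ring
  · simpa only [← evN_pc, ← evN_mul] using integrable_evN (pc (s.rder u p) * q)

theorem ip_der_two (s : Slot) (p q : Pol) : ip (s.der 2 p) q = ip p (s.der 2 q) := by
  simp only [der_two_apply, ip_smul_left, ip_smul_right, ip_rder, map_neg, Complex.conj_I]
  ring

theorem ip_der_one (s : Slot) (p q : Pol) : ip (s.der 1 p) q = ip p (s.der 0 q) := by
  simp only [der_zero_apply, der_one_apply, ip_add_left, ip_add_right, ip_smul_left, ip_smul_right,
    ip_rder, map_div₀, map_neg, Complex.conj_I, map_ofNat]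
  cases s <;> simp [sgn] <;> ring

theorem ip_der_zero (s : Slot) (p q : Pol) : ip (s.der 0 p) q = ip p (s.der 1 q) := by
  rw [← ip_conj, ← ip_der_one, ip_conj]

theorem ip_cas (s : Slot) (p q : Pol) : ip (s.triple.cas p) q = ip p (s.triple.cas q) := by
  simp only [cas_triple_apply, ip_add_left, ip_add_right, ip_smul_left, ip_smul_right,
    ip_der_two, ip_der_one, ip_der_zero, map_ofNat]

/-- Different eigenvalues of the weight operator give orthogonal functions. -/
theorem ip_eq_zero_of_weight (s : Slot) {p q : Pol} {c d : ℝ} (hp : s.der 2 p = (c : ℂ) • p)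
    (hq : s.der 2 q = (d : ℂ) • q) (h : c ≠ d) : ip p q = 0 := by
  have e := ip_der_two s p q
  rw [hp, hq, ip_smul_left, ip_smul_right, Complex.conj_ofReal] at e
  have h2 : ((c : ℂ) - d) * ip p q = 0 := by linear_combination e
  exact (mul_eq_zero.1 h2).resolve_left (sub_ne_zero.2 (by exact_mod_cast h))

/-- Different Casimir values give orthogonal functions. -/
theorem ip_eq_zero_of_cas (s : Slot) {p q : Pol} {c d : ℝ} (hp : s.triple.cas p = (c : ℂ) • p)
    (hq : s.triple.cas q = (d : ℂ) • q) (h : c ≠ d) : ip p q = 0 := by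
  have e := ip_cas s p q
  rw [hp, hq, ip_smul_left, ip_smul_right, Complex.conj_ofReal] at e
  have h2 : ((c : ℂ) - d) * ip p q = 0 := by linear_combination e
  exact (mul_eq_zero.1 h2).resolve_left (sub_ne_zero.2 (by exact_mod_cast h))

end Slot

end

end Vale.Agent.P225.Sphere
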