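import Vale.Agent.P225.Sphere.Pullback

/-!
The isometries used at the junctions as pull-backs: translations, inversion of one factor and the
cyclic relabelling of the three labels.
-/

namespace Vale.Agent.P225.Sphere

open MvPolynomial MeasureTheory

noncomputable section

theorem mat_crd_mul (p q : Quaternion ℝ) (i j : Fin 2) :
    mat (crd (p * q)) i j = ∑ m, mat (crd p) i m * mat (crd q) m j := by
  fin_cases i <;> fin_cases j <;>
    simp [Fin.sum_univ_two, mat, crd, Complex.ext_iff] <;> constructor <;> ring

theorem mat_crd_inv (q : S3) (i j : Fin 2) : mat (crd (q : Quaternion ℝ)⁻¹) i j =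
    (if i = j then 1 else -1) * mat (crd q) (oth j) (oth i) := by
  have h : Quaternion.normSq (q : Quaternion ℝ) = 1 := by
    rw [Quaternion.normSq_eq_norm_mul_self, mem_sphere_zero_iff_norm.1 q.2, one_mul]
  have e : (q : Quaternion ℝ)⁻¹ = star (q : Quaternion ℝ) := by
    rw [Quaternion.inv_def, h, inv_one, one_smul]
  rw [e]
  fin_cases i <;> fin_cases j <;> simp [mat, crd, oth, Complex.ext_iff]

/-- A component. -/
def comp (x : N2) (f : Fin 2) : S3 := ![x.1, x.2] f

theorem evN_X (v : Var) (x : N2) : evN (X v) x = mat (crd (comp x v.1)) v.2.1 v.2.2 := by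
  rw [evN_apply, ev_X]
  obtain ⟨f, i, j⟩ := v
  fin_cases f <;> rfl

theorem evN_aeval (F : Var → Pol) (g : N2 → N2) (x : N2)
    (h : ∀ v, evN (F v) x = evN (X v) (g x)) (p : Pol) :
    evN (aeval F p) x = evN p (g x) := by
  induction p using MvPolynomial.induction_on with
  | C c => simp [evN_apply, ev_apply]
  | add p q hp hq => simp only [map_add, Pi.add_apply, hp, hq]
  | mul_X p v hp => rw [map_mul, aeval_X, evN_mul, evN_mul, hp, h]

/-- A map equivariant for all left translations preserves the integrals. -/
theorem integral_of_equivariant (g : N2 → N2) (hg : Continuous g)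
    (h : ∀ c : N2, ∃ m : N2 → N2, MeasurePreserving m haarN haarN ∧ ∀ x, g (m x) = c * g x)
    (p : Pol) : ∫ x, evN p (g x) ∂haarN = ∫ x, evN p x ∂haarN := by
  have : IsProbabilityMeasure (haarN.map g) :=
    Measure.isProbabilityMeasure_map hg.measurable.aemeasurable
  have : (haarN.map g).IsMulLeftInvariant := by
    refine ⟨fun c => ?_⟩
    obtain ⟨m, hm, e⟩ := h c
    calc (haarN.map g).map (fun x => c * x) = haarN.map (fun x => c * g x) :=
          Measure.map_map (measurable_const_mul c) hg.measurable
      _ = haarN.map (g ∘ m) := by rw [show g ∘ m = fun x => c * g x from funext e]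
      _ = (haarN.map m).map g := (Measure.map_map hg.measurable hm.measurable).symm
      _ = haarN.map g := by rw [hm.map_eq]
  have e : haarN.map g = haarN := Measure.isMulLeftInvariant_eq_smul_of_regular _ haarN |>.trans (by
    have h1 := congrArg (fun μ : Measure N2 => μ Set.univ)
      (Measure.isMulLeftInvariant_eq_smul_of_regular (haarN.map g) haarN)
    simp only [measure_univ, Measure.smul_apply, smul_eq_mul, mul_one, ENNReal.smul_def] at h1
    rw [show Measure.haarScalarFactor (haarN.map g) haarN = 1 by exact_mod_cast h1.symm, one_smul])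
  conv_rhs => rw [← e]
  exact (integral_map hg.measurable.aemeasurable (continuous_evN p).aestronglyMeasurable).symm

theorem intertwine (τ : Pol →ₐ[ℂ] Pol) (D D' : Derivation ℂ Pol Pol)
    (h : ∀ v, τ (D (X v)) = D' (τ (X v))) (p : Pol) : τ (D p) = D' (τ p) := by
  induction p using MvPolynomial.induction_on with
  | C c => simp [← algebraMap_eq]
  | add p q hp hq => simp [hp, hq]
  | mul_X p v hp => simp [Derivation.leibniz, hp, h]

theorem carries_same (T : Pullback) {s s' : Slot}
    (h : ∀ k v, T.τ (s.der k (X v)) = s'.der k (T.τ (X v))) : T.Carries s s' := fun p => by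
  simp only [Slot.cas_triple_apply, map_add, map_smul,
    intertwine T.τ (s.der _) (s'.der _) (h _)]

theorem carries_flip (T : Pullback) {s s' : Slot}
    (h : ∀ k v, T.τ (s.der k (X v)) = -(s'.der (Slot.flipK k) (T.τ (X v)))) :
    T.Carries s s' := fun p => by
  have e : ∀ k q, T.τ (s.der k q) = -(s'.der (Slot.flipK k) (T.τ q)) := fun k q => by
    rw [intertwine T.τ (s.der k) (-(s'.der (Slot.flipK k))) (fun v => h k v)]
    rfl
  have he : s'.der 0 (s'.der 1 (T.τ p)) = s'.der 1 (s'.der 0 (T.τ p)) + s'.der 2 (T.τ p) := by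
    have := congrArg (fun D : Derivation ℂ Pol Pol => D (T.τ p)) s'.der_ef
    rw [← this]
    simp [Derivation.commutator_apply]
  refine congrArg evN ?_
  simp [Slot.cas_triple_apply, e, Slot.flipK, he]
  module

theorem carries_left {T : Pullback} {f g : Fin 2} (h : T.Carries (.L f) (.L g)) :
    T.Carries (.R f) (.R g) := fun p => by rw [← Slot.cas_left_eq, h p, Slot.cas_left_eq]

namespace Pullback

/-- Right translation. -/
def rightT (h : N2) : Pullback where
  g x := x * h
  τ := aeval fun v => ∑ m, mat (crd (comp h v.1)) m v.2.2 • X (v.1, v.2.1, m)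
  evN_τ p x := evN_aeval _ (fun x => x * h) x (fun v => by
    obtain ⟨f, i, j⟩ := v
    simp only [map_sum, map_smul, Finset.sum_apply, Pi.smul_apply, evN_X, smul_eq_mul]
    rw [show comp (x * h) f = comp x f * comp h f by fin_cases f <;> rfl,
      Metric.unitSphere.coe_mul, mat_crd_mul]
    exact Finset.sum_congr rfl fun m _ => by ring) p
  integral p := integral_mul_right_eq_self _ h

/-- Left translation. -/
def leftT (h : N2) : Pullback where
  g x := h * x
  τ := aeval fun v => ∑ m, mat (crd (comp h v.1)) v.2.1 m • X (v.1, m, v.2.2)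
  evN_τ p x := evN_aeval _ (fun x => h * x) x (fun v => by
    obtain ⟨f, i, j⟩ := v
    simp only [map_sum, map_smul, Finset.sum_apply, Pi.smul_apply, evN_X, smul_eq_mul]
    rw [show comp (h * x) f = comp h f * comp x f by fin_cases f <;> rfl,
      Metric.unitSphere.coe_mul, mat_crd_mul]) p
  integral p := integral_mul_left_eq_self _ h

/-- Inversion of one factor. -/
def invFun (f : Fin 2) (x : N2) : N2 := if f = 0 then (x.1⁻¹, x.2) else (x.1, x.2⁻¹)

/-- Inversion of one factor. -/
def inv (f : Fin 2) : Pullback where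
  g := invFun f
  τ := aeval fun v => if v.1 = f then
    (if v.2.1 = v.2.2 then (1 : ℂ) else -1) • X (v.1, oth v.2.2, oth v.2.1) else X v
  evN_τ p x := evN_aeval _ (invFun f) x (fun v => by
    obtain ⟨g, i, j⟩ := v
    fin_cases f <;> fin_cases g <;>
      simp [invFun, evN_X, comp, mat_crd_inv] <;> split_ifs <;> simp [evN_X, comp]) p
  integral := integral_of_equivariant (invFun f)
    (by unfold invFun; split_ifs <;> fun_prop) fun c => by
      fin_cases f
      · exact ⟨_, (measurePreserving_mul_left haarN (1, c.2)).comp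
          (measurePreserving_mul_right haarN (c.1⁻¹, 1)),
          fun x => by simp [invFun, Prod.mul_def]⟩
      · exact ⟨_, (measurePreserving_mul_left haarN (c.1, 1)).comp
          (measurePreserving_mul_right haarN (1, c.2⁻¹)),
          fun x => by simp [invFun, Prod.mul_def]⟩

/-- The cyclic map `(x, y) ↦ (y x⁻¹, x⁻¹)`. -/
def cycFun (x : N2) : N2 := (x.2 * x.1⁻¹, x.1⁻¹)

/-- The inverse entry of the first factor. -/
def adjX (i j : Fin 2) : Pol := (if i = j then (1 : ℂ) else -1) • X (0, oth j, oth i)

/-- The cyclic relabelling. -/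
def cyc : Pullback where
  g := cycFun
  τ := aeval fun v => if v.1 = 0 then ∑ m, X (1, v.2.1, m) * adjX m v.2.2 else adjX v.2.1 v.2.2
  evN_τ p x := evN_aeval _ cycFun x (fun v => by
    obtain ⟨g, i, j⟩ := v
    have e : ∀ i j, evN (adjX i j) x = mat (crd (x.1 : Quaternion ℝ)⁻¹) i j := fun i j => by
      simp [adjX, mat_crd_inv]; split_ifs <;> simp [evN_X, comp]
    fin_cases g
    · simp [evN_X, cycFun, comp, mat_crd_mul, evN_mul, e]
    · simp [evN_X, cycFun, comp, e]) p
  integral := integral_of_equivariant cycFun (by unfold cycFun; fun_prop) fun c =>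
    ⟨_, (measurePreserving_mul_left haarN (1, c.1)).comp
      (measurePreserving_mul_right haarN (c.2⁻¹, c.2⁻¹)),
      fun x => by simp [cycFun, Prod.mul_def, mul_assoc]⟩

theorem leftT_carries (h : N2) (r : Fin 3) : (leftT h).Carries (rSlot r) (rSlot r) := by
  refine carries_same _ fun k v => ?_
  obtain ⟨g, i, j⟩ := v
  fin_cases r
  · by_cases e : (0 : Fin 2) = g <;>
      simp [rSlot, leftT, Slot.der_X, Slot.img, Slot.act, Slot.get, Slot.put, e, smul_smul,
        mul_comm]
  · by_cases e : (1 : Fin 2) = g <;>
      simp [rSlot, leftT, Slot.der_X, Slot.img, Slot.act, Slot.get, Slot.put, e, smul_smul,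
        mul_comm]
  · simp [rSlot, leftT, Slot.der_X, Slot.img, Slot.act, Slot.get, Slot.put, smul_smul,
      mul_comm]

theorem rightT_carries (h : N2) (f : Fin 2) : (rightT h).Carries (.R f) (.R f) := by
  refine carries_left (carries_same _ fun k v => ?_)
  obtain ⟨g, i, j⟩ := v
  by_cases e : f = g <;>
    simp [rightT, Slot.der_X, Slot.img, Slot.act, Slot.get, Slot.put, e, smul_smul,
      mul_comm]

theorem inv_carries (f g : Fin 2) : (inv f).Carries (.R g) (.R g) := by
  by_cases e : g = f
  · subst e
    intro p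
    rw [carries_flip (inv g) (s := .R g) (s' := .L g) (fun k v => ?_) p, Slot.cas_left_eq]
    obtain ⟨g', i, j⟩ := v
    by_cases e : g = g'
    · subst e
      fin_cases k <;> fin_cases i <;> fin_cases j <;>
        simp [inv, Slot.der_X, Slot.img, Slot.act, Slot.get, Slot.put, Slot.coef, Slot.tgt,
          Slot.flipK, oth]
    · simp [inv, Slot.der_X, Slot.img, Slot.act, e, Ne.symm e]
  · refine carries_same _ fun k v => ?_
    obtain ⟨g', i, j⟩ := v
    by_cases e1 : g = g'
    · subst e1
      simp [inv, Slot.der_X, Slot.img, Slot.act, Slot.get, Slot.put, e]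
    · by_cases e2 : g' = f
      · subst e2
        fin_cases i <;> fin_cases j <;>
          simp [inv, Slot.der_X, Slot.img, Slot.act, e1]
      · simp [inv, Slot.der_X, Slot.img, Slot.act, Slot.get, Slot.put, e1, e2]

theorem cyc_L0 : cyc.Carries (.L 0) (.L 1) := by
  refine carries_same _ fun k v => ?_
  obtain ⟨g, i, j⟩ := v
  fin_cases g <;> fin_cases k <;> fin_cases i <;> fin_cases j <;>
    simp [cyc, adjX, Slot.der_X, Slot.img, Slot.act, Slot.get, Slot.put, Slot.coef, Slot.tgt, oth,
      Derivation.leibniz, Fin.sum_univ_two] <;> ring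

theorem cyc_L1 : cyc.Carries (.L 1) .D := by
  refine carries_flip _ fun k v => ?_
  obtain ⟨g, i, j⟩ := v
  fin_cases g <;> fin_cases k <;> fin_cases i <;> fin_cases j <;>
    simp [cyc, adjX, Slot.der_X, Slot.img, Slot.act, Slot.get, Slot.put, Slot.coef, Slot.tgt,
      Slot.flipK, oth, Derivation.leibniz, Fin.sum_univ_two] <;> ring

theorem cyc_D : cyc.Carries .D (.L 0) := by
  refine carries_flip _ fun k v => ?_
  obtain ⟨g, i, j⟩ := v
  fin_cases g <;> fin_cases k <;> fin_cases i <;> fin_cases j <;>
    simp [cyc, adjX, Slot.der_X, Slot.img, Slot.act, Slot.get, Slot.put, Slot.coef, Slot.tgt,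
      Slot.flipK, oth, Derivation.leibniz, Fin.sum_univ_two] <;> ring

theorem cyc_carries (r : Fin 3) : cyc.Carries (rSlot r) (rSlot (r + 1)) := by
  fin_cases r
  · exact carries_left cyc_L0
  · intro p
    show evN (cyc.τ ((Slot.R 1).triple.cas p)) = _
    rw [← Slot.cas_left_eq]
    exact cyc_L1 p
  · intro p
    show _ = evN ((Slot.R 0).triple.cas _)
    rw [← Slot.cas_left_eq]
    exact cyc_D p

end Pullback

end

end Vale.Agent.P225.Sphere
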