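import Vale.Agent.P225.Sphere.Sl2

/-!
Polynomials in the entries of two `2 × 2` matrices, the five `sl₂` actions by translations and the
identity of the left and right Casimir operators of one factor.
-/

namespace Vale.Agent.P225.Sphere

open MvPolynomial

noncomputable section

/-- An entry `(factor, row, column)`. -/
abbrev Var := Fin 2 × Fin 2 × Fin 2

/-- The polynomial ring of the entries. -/
abbrev Pol := MvPolynomial Var ℂ

/-- The five actions: right on a factor, left on a factor, right on both factors. -/
inductive Slot
  | R (f : Fin 2)
  | L (f : Fin 2)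
  | D
  deriving DecidableEq

namespace Slot

/-- The factors acted upon. -/
def act : Slot → Fin 2 → Bool
  | R f, g => f == g
  | L f, g => f == g
  | D, _ => true

/-- The index acted upon. -/
def get : Slot → Var → Fin 2
  | R _, v => v.2.2
  | L _, v => v.2.1
  | D, v => v.2.2

/-- The entry with that index replaced. -/
def put : Slot → Var → Fin 2 → Var
  | R _, v, a => (v.1, v.2.1, a)
  | L _, v, a => (v.1, a, v.2.2)
  | D, v, a => (v.1, v.2.1, a)

/-- The coefficient of raising (`0`), lowering (`1`) and weight (`2`) at an index. -/
def coef : Fin 3 → Fin 2 → ℂ := ![![0, 1], ![1, 0], ![1, -1]]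

/-- The target index. -/
def tgt : Fin 3 → Fin 2 → Fin 2 := ![![0, 0], ![1, 1], ![0, 1]]

/-- The image of an entry. -/
def img (s : Slot) (k : Fin 3) (v : Var) : Pol :=
  if s.act v.1 then coef k (s.get v) • X (s.put v (tgt k (s.get v))) else 0

/-- The operators. -/
def der (s : Slot) (k : Fin 3) : Derivation ℂ Pol Pol := mkDerivation ℂ (s.img k)

theorem der_X (s : Slot) (k : Fin 3) (v : Var) : s.der k (X v) = s.img k v := mkDerivation_X ..

theorem der_ef (s : Slot) : ⁅s.der 0, s.der 1⁆ = s.der 2 := by
  refine derivation_ext fun ⟨g, i, j⟩ => ?_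
  cases s with
  | R f => fin_cases f <;> fin_cases g <;> fin_cases i <;> fin_cases j <;>
      simp [Derivation.commutator_apply, der_X, img, act, get, put, coef, tgt]
  | L f => fin_cases f <;> fin_cases g <;> fin_cases i <;> fin_cases j <;>
      simp [Derivation.commutator_apply, der_X, img, act, get, put, coef, tgt]
  | D => fin_cases g <;> fin_cases i <;> fin_cases j <;>
      simp [Derivation.commutator_apply, der_X, img, act, get, put, coef, tgt]

theorem der_he (s : Slot) : ⁅s.der 2, s.der 0⁆ = (2 : ℂ) • s.der 0 := by
  refine derivation_ext fun ⟨g, i, j⟩ => ?_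
  cases s with
  | R f => fin_cases f <;> fin_cases g <;> fin_cases i <;> fin_cases j <;>
      simp [Derivation.commutator_apply, der_X, img, act, get, put, coef, tgt, two_smul]
  | L f => fin_cases f <;> fin_cases g <;> fin_cases i <;> fin_cases j <;>
      simp [Derivation.commutator_apply, der_X, img, act, get, put, coef, tgt, two_smul]
  | D => fin_cases g <;> fin_cases i <;> fin_cases j <;>
      simp [Derivation.commutator_apply, der_X, img, act, get, put, coef, tgt, two_smul]

theorem der_hf (s : Slot) : ⁅s.der 2, s.der 1⁆ = -((2 : ℂ) • s.der 1) := by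
  refine derivation_ext fun ⟨g, i, j⟩ => ?_
  cases s with
  | R f => fin_cases f <;> fin_cases g <;> fin_cases i <;> fin_cases j <;>
      simp [Derivation.commutator_apply, der_X, img, act, get, put, coef, tgt, two_smul] <;> abel
  | L f => fin_cases f <;> fin_cases g <;> fin_cases i <;> fin_cases j <;>
      simp [Derivation.commutator_apply, der_X, img, act, get, put, coef, tgt, two_smul] <;> abel
  | D => fin_cases g <;> fin_cases i <;> fin_cases j <;>
      simp [Derivation.commutator_apply, der_X, img, act, get, put, coef, tgt, two_smul] <;> abel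

/-- Slots whose operators commute. -/
def Indep : Slot → Slot → Bool
  | R f, R g => f != g
  | L f, L g => f != g
  | R _, L _ => true
  | L _, R _ => true
  | L _, D => true
  | D, L _ => true
  | _, _ => false

theorem der_comm {s t : Slot} (h : s.Indep t) (k l : Fin 3) (p : Pol) :
    s.der k (t.der l p) = t.der l (s.der k p) := by
  have e : ⁅s.der k, t.der l⁆ = 0 := by
    refine derivation_ext fun v => ?_
    simp only [Derivation.commutator_apply, der_X, Derivation.coe_zero, Pi.zero_apply, img]
    have hs : ∀ a, (s.put v a).1 = v.1 := fun a => by cases s <;> rfl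
    have ht : ∀ a, (t.put v a).1 = v.1 := fun a => by cases t <;> rfl
    split_ifs with h1 h2 h2 <;>
      simp only [Derivation.map_smul, map_zero, der_X, img, hs, ht, h1, h2, Bool.false_eq_true,
        smul_zero, sub_self, ↓reduceIte]
    rw [sub_eq_zero, smul_comm]
    rcases s with f | f | _ <;> rcases t with f' | f' | _ <;>
      simp_all [Indep, act, get, put]
  have := congrArg (fun D : Derivation ℂ Pol Pol => D p) e
  simpa [Derivation.commutator_apply, sub_eq_zero] using this

/-- The triple of a slot. -/
def triple (s : Slot) : Triple Pol where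
  E := (s.der 0).toLinearMap
  F := (s.der 1).toLinearMap
  H := (s.der 2).toLinearMap
  ef p := by
    have := congrArg (fun D : Derivation ℂ Pol Pol => D p) s.der_ef
    simpa [Derivation.commutator_apply] using this
  he p := by
    have := congrArg (fun D : Derivation ℂ Pol Pol => D p) s.der_he
    simpa [Derivation.commutator_apply] using this
  hf p := by
    have := congrArg (fun D : Derivation ℂ Pol Pol => D p) s.der_hf
    simpa [Derivation.commutator_apply] using this

theorem diag_eq (k : Fin 3) : D.der k = (R 0).der k + (R 1).der k := by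
  refine derivation_ext fun ⟨g, i, j⟩ => ?_
  fin_cases g <;> simp [der_X, img, act, get, put, coef, tgt]

theorem cas_triple_apply (s : Slot) (p : Pol) :
    s.triple.cas p = s.der 2 (s.der 2 p) + (2 : ℂ) • s.der 2 p + (4 : ℂ) • s.der 1 (s.der 0 p) :=
  rfl

theorem cas_commute {s t : Slot} (h : s.Indep t) (l : Fin 3) (p : Pol) :
    s.triple.cas (t.der l p) = t.der l (s.triple.cas p) := by
  simp only [cas_triple_apply, der_comm h, map_add, Derivation.map_smul]

/-- The bilinear part of the Casimir operator against an entry. -/
def bil (s : Slot) (v : Var) : Derivation ℂ Pol Pol :=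
  ((2 : Pol) * s.img 2 v) • s.der 2 + ((4 : Pol) * s.img 1 v) • s.der 0 +
    ((4 : Pol) * s.img 0 v) • s.der 1

theorem cas_mul_X (s : Slot) (q : Pol) (v : Var) : s.triple.cas (q * X v) =
    s.triple.cas q * X v + q * s.triple.cas (X v) + s.bil v q := by
  simp only [cas_triple_apply, Derivation.leibniz, map_add, smul_eq_mul, bil, Derivation.add_apply,
    Derivation.smul_apply, der_X, MvPolynomial.smul_eq_C_mul, map_ofNat]
  ring

theorem bil_eq (f : Fin 2) (v : Var) : (L f).bil v = (R f).bil v := by
  refine derivation_ext fun w => ?_
  obtain ⟨g, i, j⟩ := v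
  obtain ⟨g', i', j'⟩ := w
  simp only [bil, Derivation.add_apply, Derivation.smul_apply, der_X, smul_eq_mul]
  by_cases hg : f = g
  · by_cases hg' : f = g'
    · subst hg; subst hg'
      fin_cases i <;> fin_cases j <;> fin_cases i' <;> fin_cases j' <;>
        simp [img, act, get, put, coef, tgt] <;> ring
    · simp [img, act, hg']
  · simp [img, act, hg]

theorem cas_left_eq_X (f : Fin 2) (v : Var) :
    (L f).triple.cas (X v) = (R f).triple.cas (X v) := by
  obtain ⟨g, i, j⟩ := v
  by_cases hg : f = g
  · subst hg
    fin_cases i <;> fin_cases j <;>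
      simp [cas_triple_apply, der_X, img, act, get, put, coef, tgt] <;> module
  · simp [cas_triple_apply, der_X, img, act, hg]

/-- The left and the right Casimir operator of one factor agree. -/
theorem cas_left_eq (f : Fin 2) (p : Pol) : (L f).triple.cas p = (R f).triple.cas p := by
  induction p using MvPolynomial.induction_on with
  | C c => simp only [cas_triple_apply, Derivation.map_algebraMap, map_zero, smul_zero, ← algebraMap_eq]
  | add p q hp hq => rw [map_add, map_add, hp, hq]
  | mul_X q v ih => rw [cas_mul_X, cas_mul_X, ih, bil_eq, cas_left_eq_X]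

end Slot

end

end Vale.Agent.P225.Sphere
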