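import Vale.Agent.P225.Sphere.Single

/-!
Two factors: the span `M2 a b` of the products of the two levels contains the vectors of every block
with first labels `(a, b)`, and all of them give every polynomial function on the group.
-/

namespace Vale.Agent.P225.Sphere

open MvPolynomial

noncomputable section

theorem gen_other {f g : Fin 2} (hfg : g ≠ f) {s : Slot} (hs : s = .L g ∨ s = .R g)
    (k : Fin 3) (a i p : ℕ) : s.der k (gen f a i p) = 0 := by
  have hi : s.Indep (.L f) := by rcases hs with rfl | rfl <;> simp [Slot.Indep, hfg]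
  have hX : ∀ j, s.der k (X (f, 0, j)) = (0 : ℂ) • X (f, 0, j) := fun j => by
    rcases hs with rfl | rfl <;> simp [Slot.der_X, Slot.img, Slot.act, hfg]
  induction i with
  | zero =>
    rw [gen_zero, mono, eig_mul (eig_pow (hX 0) _) (eig_pow (hX 1) _)]
    simp
  | succ n ih => rw [← F_gen, Slot.der_comm hi, ih, map_zero]

theorem M1_other {f g : Fin 2} (hfg : g ≠ f) {s : Slot} (hs : s = .L g ∨ s = .R g)
    (k : Fin 3) {a : ℕ} {m : Pol} (h : m ∈ M1 f a) : s.der k m = 0 := by
  induction h using Submodule.span_induction with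
  | mem x hx =>
    obtain ⟨⟨i, p⟩, rfl⟩ := hx
    exact gen_other hfg hs k a i p
  | zero => simp
  | add x y _ _ hx hy => rw [map_add, hx, hy, add_zero]
  | smul c x _ hx => rw [Derivation.map_smul, hx, smul_zero]

/-- The span of a level of the product. -/
def M2 (a b : ℕ) : Submodule ℂ Pol := M1 0 a * M1 1 b

theorem M2_factor (a b : ℕ) (g : Fin 2) {s : Slot} (hs : s = .L g ∨ s = .R g) {m : Pol}
    (h : m ∈ M2 a b) : s.der 1 m ∈ M2 a b := by
  induction h using Submodule.mul_induction_on' with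
  | mem_mul_mem x hx y hy =>
    rw [Derivation.leibniz, smul_eq_mul, smul_eq_mul]
    obtain rfl | rfl : g = 0 ∨ g = 1 := by fin_cases g <;> simp
    · have hne : (0 : Fin 2) ≠ 1 := by decide
      rw [M1_other (f := 1) hne hs 1 hy, mul_zero, zero_add, mul_comm]
      rcases hs with rfl | rfl
      · exact Submodule.mul_mem_mul (M1_L 0 a hx) hy
      · exact Submodule.mul_mem_mul (M1_R 0 a hx) hy
    · have hne : (1 : Fin 2) ≠ 0 := by decide
      rw [M1_other (f := 0) hne hs 1 hx, mul_zero, add_zero]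
      rcases hs with rfl | rfl
      · exact Submodule.mul_mem_mul hx (M1_L 1 b hy)
      · exact Submodule.mul_mem_mul hx (M1_R 1 b hy)
  | add x _ y _ hx hy => rw [map_add]; exact add_mem hx hy

theorem M2_slotOf (a b : ℕ) (r : Fin 3) {m : Pol} (h : m ∈ M2 a b) :
    (slotOf r).triple.F m ∈ M2 a b := by
  show (slotOf r).der 1 m ∈ M2 a b
  fin_cases r
  · exact M2_factor a b 0 (Or.inl rfl) h
  · exact M2_factor a b 1 (Or.inl rfl) h
  · show Slot.D.der 1 m ∈ M2 a b
    rw [Slot.diag_eq]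
    exact add_mem (M2_factor a b 0 (Or.inr rfl) h) (M2_factor a b 1 (Or.inr rfl) h)

/-- The products of first-row monomials. -/
def M0 (a b : ℕ) : Submodule ℂ Pol :=
  Submodule.span ℂ (Set.range fun pq : Fin (a + 1) × Fin (b + 1) =>
    mono 0 a pq.1 * mono 1 b pq.2)

theorem M0_le (a b : ℕ) : M0 a b ≤ M2 a b := by
  refine Submodule.span_le.2 ?_
  rintro _ ⟨⟨p, q⟩, rfl⟩
  exact Submodule.mul_mem_mul (by simpa [gen_zero] using gen_mem 0 (p := p) (by omega) 0)
    (by simpa [gen_zero] using gen_mem 1 (p := q) (by omega) 0)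

theorem mul_mix_mem (a b : ℕ) {m : Pol} (h : m ∈ M0 a b) : mix * m ∈ M0 (a + 1) (b + 1) := by
  induction h using Submodule.span_induction with
  | mem x hx =>
    obtain ⟨⟨p, q⟩, rfl⟩ := hx
    have e : mix * (mono 0 a p * mono 1 b q) = mono 0 (a + 1) p * mono 1 (b + 1) (q + 1) -
        mono 0 (a + 1) (p + 1) * mono 1 (b + 1) q := by
      simp only [mono, mix, show a + 1 - (p : ℕ) = a - p + 1 by omega,
        show b + 1 - (q : ℕ) = b - q + 1 by omega, Nat.add_sub_add_right, pow_succ]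
      ring
    rw [e]
    exact sub_mem (Submodule.subset_span ⟨(⟨p, by omega⟩, ⟨q + 1, by omega⟩), rfl⟩)
      (Submodule.subset_span ⟨(⟨p + 1, by omega⟩, ⟨q, by omega⟩), rfl⟩)
  | zero => simp
  | add x y _ _ hx hy => rw [mul_add]; exact add_mem hx hy
  | smul c x _ hx => rw [mul_smul_comm]; exact Submodule.smul_mem _ c hx

theorem hw_mem (k : ℕ × ℕ × ℕ) : hw k ∈ M0 (k.2.1 + k.2.2) (k.1 + k.2.2) := by
  obtain ⟨k1, k2, k3⟩ := k
  induction k3 with
  | zero => exact Submodule.subset_span ⟨(0, 0), by simp [hw, mono]⟩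
  | succ n ih =>
    have := mul_mix_mem _ _ ih
    rw [show hw (k1, k2, n + 1) = mix * hw (k1, k2, n) by simp only [hw, pow_succ]; ring]
    exact this

theorem vec_mem (k : ℕ × ℕ × ℕ) (i j l : ℕ) :
    vec k i j l ∈ M2 (k.2.1 + k.2.2) (k.1 + k.2.2) := by
  have key : ∀ (r : Fin 3) (n : ℕ) {m : Pol}, m ∈ M2 (k.2.1 + k.2.2) (k.1 + k.2.2) →
      ((slotOf r).triple.F ^ n) m ∈ M2 (k.2.1 + k.2.2) (k.1 + k.2.2) := by
    intro r n
    induction n with
    | zero => exact fun h => h
    | succ n ih => intro m h; rw [pow_succ', Module.End.mul_apply]; exact M2_slotOf _ _ r (ih h)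
  exact key 0 i (key 1 j (key 2 l (M0_le _ _ (hw_mem k))))

/-- Every polynomial is, on the group, a sum over the levels. -/
theorem mem_iSup_M2 (p : Pol) : p ∈ (⨆ ab : ℕ × ℕ, M2 ab.1 ab.2) ⊔ K := by
  have hle : ∀ a b, M2 a b ≤ (⨆ ab : ℕ × ℕ, M2 ab.1 ab.2) ⊔ K := fun a b =>
    le_sup_of_le_left (le_iSup (fun ab : ℕ × ℕ => M2 ab.1 ab.2) (a, b))
  set S := (⨆ ab : ℕ × ℕ, M2 ab.1 ab.2) ⊔ K
  have hmul : ∀ a b {m : Pol}, m ∈ M2 a b → ∀ v : Var, m * X v ∈ S := by
    intro a b m h ⟨g, i, j⟩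
    induction h using Submodule.mul_induction_on' with
    | mem_mul_mem x hx y hy =>
      have low : ∀ (u : Pol), u ∈ K → u ∈ S := fun u hu => Submodule.mem_sup_right hu
      obtain rfl | rfl : g = 0 ∨ g = 1 := by fin_cases g <;> simp
      · obtain ⟨u, hu, w, hw, e⟩ := Submodule.mem_sup.1 (M1_mul_X 0 a hx i j)
        obtain ⟨u1, hu1, u2, hu2, rfl⟩ := Submodule.mem_sup.1 hu
        rw [mul_right_comm, ← e, add_mul, add_mul]
        exact add_mem (add_mem (hle _ _ (Submodule.mul_mem_mul hu1 hy))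
          (hle _ _ (Submodule.mul_mem_mul hu2 hy))) (low _ (mul_mem_K hw y))
      · obtain ⟨u, hu, w, hw, e⟩ := Submodule.mem_sup.1 (M1_mul_X 1 b hy i j)
        obtain ⟨u1, hu1, u2, hu2, rfl⟩ := Submodule.mem_sup.1 hu
        rw [mul_assoc, ← e, mul_add, mul_add, mul_comm x w]
        exact add_mem (add_mem (hle _ _ (Submodule.mul_mem_mul hx hu1))
          (hle _ _ (Submodule.mul_mem_mul hx hu2))) (low _ (mul_mem_K hw x))
    | add x _ y _ hx hy => rw [add_mul]; exact add_mem hx hy
  induction p using MvPolynomial.induction_on with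
  | C c =>
    refine hle 0 0 ?_
    have h := Submodule.mul_mem_mul (gen_mem 0 (a := 0) (p := 0) le_rfl 0)
      (gen_mem 1 (a := 0) (p := 0) le_rfl 0)
    simpa [gen_zero, mono, smul_eq_C_mul] using Submodule.smul_mem (M2 0 0) c h
  | add p q hp hq => exact add_mem hp hq
  | mul_X p v hp =>
    obtain ⟨u, hu, w, hw, rfl⟩ := Submodule.mem_sup.1 hp
    rw [add_mul]
    refine add_mem ?_ (Submodule.mem_sup_right (mul_mem_K hw _))
    clear hp
    induction hu using Submodule.iSup_induction' with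
    | mem ab m hm => exact hmul _ _ hm v
    | zero => simp
    | add x y _ _ hx hy => rw [add_mul]; exact add_mem hx hy

end

end Vale.Agent.P225.Sphere
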