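import Vale.Agent.P225.Sphere.Poly

/-!
The block `V = (a, b, c)`, `a = k₂+k₃, b = k₁+k₃, c = k₁+k₂`: a highest vector and its lowered
vectors under the left actions on the two factors and the right action on both.
-/

namespace Vale.Agent.P225.Sphere

open MvPolynomial

noncomputable section

/-- Iterates of a derivation. -/
def diter (D : Derivation ℂ Pol Pol) (n : ℕ) : Pol →ₗ[ℂ] Pol := D.toLinearMap ^ n

theorem diter_succ (D : Derivation ℂ Pol Pol) (n : ℕ) (p : Pol) :
    diter D (n + 1) p = diter D n (D p) := by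
  rw [diter, diter, pow_succ, Module.End.mul_apply]
  rfl

theorem diter_mono {D : Derivation ℂ Pol Pol} {n m : ℕ} {p : Pol} (h : diter D n p = 0)
    (hm : n ≤ m) : diter D m p = 0 := by
  obtain ⟨r, rfl⟩ := Nat.exists_eq_add_of_le hm
  rw [diter] at h ⊢
  rw [add_comm, pow_add, Module.End.mul_apply, h, map_zero]

/-- A product of nilpotent elements is nilpotent. -/
theorem diter_mul {D : Derivation ℂ Pol Pol} : ∀ {m n : ℕ} {p q : Pol},
    diter D m p = 0 → diter D n q = 0 → diter D (m + n) (p * q) = 0 := by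
  intro m n
  induction hN : m + n using Nat.strong_induction_on generalizing m n with
  | _ N ih =>
    intro p q hp hq
    subst hN
    rcases m with _ | m
    · rw [show p = 0 by simpa [diter] using hp, zero_mul, map_zero]
    rcases n with _ | n
    · rw [show q = 0 by simpa [diter] using hq, mul_zero, map_zero]
    have h1 : diter D (m + 1 + n) (p * D q) = 0 :=
      ih (m + 1 + n) (by omega) rfl hp (by rw [← diter_succ]; exact hq)
    have h2 : diter D (m + (n + 1)) (D p * q) = 0 :=
      ih (m + (n + 1)) (by omega) rfl (by rw [← diter_succ]; exact hp) hq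
    rw [show m + 1 + (n + 1) = m + 1 + n + 1 by omega, diter_succ, Derivation.leibniz, map_add,
      smul_eq_mul, smul_eq_mul, h1, zero_add, mul_comm q, show m + 1 + n = m + (n + 1) by omega, h2]

theorem diter_eventually (s : Slot) (p : Pol) : ∃ N, diter (s.der 1) N p = 0 := by
  induction p using MvPolynomial.induction_on with
  | C c => exact ⟨1, by simp [diter]⟩
  | add p q hp hq =>
    obtain ⟨m, hm⟩ := hp
    obtain ⟨n, hn⟩ := hq
    exact ⟨max m n, by rw [map_add, diter_mono hm (le_max_left _ _),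
      diter_mono hn (le_max_right _ _), add_zero]⟩
  | mul_X p v hp =>
    obtain ⟨m, hm⟩ := hp
    refine ⟨m + 2, diter_mul hm ?_⟩
    rw [diter_succ, diter_succ, diter, pow_zero, Module.End.one_apply]
    obtain ⟨g, i, j⟩ := v
    cases s with
    | R f => fin_cases j <;> by_cases h : f = g <;>
        simp [Slot.der_X, Slot.img, Slot.act, Slot.get, Slot.put, Slot.coef, Slot.tgt, h]
    | L f => fin_cases i <;> by_cases h : f = g <;>
        simp [Slot.der_X, Slot.img, Slot.act, Slot.get, Slot.put, Slot.coef, Slot.tgt, h]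
    | D => fin_cases j <;>
        simp [Slot.der_X, Slot.img, Slot.act, Slot.get, Slot.put, Slot.coef, Slot.tgt]

theorem eig_mul {D : Derivation ℂ Pol Pol} {p q : Pol} {c d : ℂ} (hp : D p = c • p)
    (hq : D q = d • q) : D (p * q) = (c + d) • (p * q) := by
  rw [Derivation.leibniz, hp, hq, smul_eq_mul, smul_eq_mul, smul_eq_C_mul, smul_eq_C_mul,
    smul_eq_C_mul, map_add]
  ring

theorem eig_pow {D : Derivation ℂ Pol Pol} {p : Pol} {c : ℂ} (hp : D p = c • p) (n : ℕ) :
    D (p ^ n) = ((n : ℂ) * c) • p ^ n := by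
  induction n with
  | zero => simp
  | succ n ih =>
    rw [pow_succ, eig_mul ih hp]
    push_cast
    congr 1
    ring

/-- The invariant of the right action on both factors. -/
def mix : Pol := X (0, 0, 0) * X (1, 0, 1) - X (0, 0, 1) * X (1, 0, 0)

/-- The highest vector of the block. -/
def hw (k : ℕ × ℕ × ℕ) : Pol := mix ^ k.2.2 * X (0, 0, 0) ^ k.2.1 * X (1, 0, 0) ^ k.1

/-- The three slots of a block and their weights. -/
def slotOf : Fin 3 → Slot := ![.L 0, .L 1, .D]

/-- The labels `(a, b, c)`. -/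
def label (k : ℕ × ℕ × ℕ) : Fin 3 → ℕ := ![k.2.1 + k.2.2, k.1 + k.2.2, k.1 + k.2.1]

theorem hw_H (k : ℕ × ℕ × ℕ) (r : Fin 3) :
    (slotOf r).triple.H (hw k) = (label k r : ℂ) • hw k := by
  show (slotOf r).der 2 (hw k) = _
  have hmix : (slotOf r).der 2 mix = (![1, 1, 0] r : ℂ) • mix := by
    fin_cases r <;>
      simp [slotOf, mix, Slot.der_X, Slot.img, Slot.act, Slot.get, Slot.put, Slot.coef, Slot.tgt,
        Derivation.leibniz] <;> ring
  have hx : (slotOf r).der 2 (X (0, 0, 0)) = (![1, 0, 1] r : ℂ) • X (0, 0, 0) := by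
    fin_cases r <;>
      simp [slotOf, Slot.der_X, Slot.img, Slot.act, Slot.get, Slot.put, Slot.coef, Slot.tgt]
  have hy : (slotOf r).der 2 (X (1, 0, 0)) = (![0, 1, 1] r : ℂ) • X (1, 0, 0) := by
    fin_cases r <;>
      simp [slotOf, Slot.der_X, Slot.img, Slot.act, Slot.get, Slot.put, Slot.coef, Slot.tgt]
  rw [hw, eig_mul (eig_mul (eig_pow hmix _) (eig_pow hx _)) (eig_pow hy _)]
  congr 1
  fin_cases r <;> simp [label] <;> ring

theorem hw_E (k : ℕ × ℕ × ℕ) (r : Fin 3) : (slotOf r).triple.E (hw k) = 0 := by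
  show (slotOf r).der 0 (hw k) = 0
  have hmix : (slotOf r).der 0 mix = (0 : ℂ) • mix := by
    fin_cases r <;>
      simp [slotOf, mix, Slot.der_X, Slot.img, Slot.act, Slot.get, Slot.put, Slot.coef, Slot.tgt,
        Derivation.leibniz] <;> ring
  have hx : (slotOf r).der 0 (X (0, 0, 0)) = (0 : ℂ) • X (0, 0, 0) := by
    fin_cases r <;>
      simp [slotOf, Slot.der_X, Slot.img, Slot.act, Slot.get, Slot.put, Slot.coef, Slot.tgt]
  have hy : (slotOf r).der 0 (X (1, 0, 0)) = (0 : ℂ) • X (1, 0, 0) := by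
    fin_cases r <;>
      simp [slotOf, Slot.der_X, Slot.img, Slot.act, Slot.get, Slot.put, Slot.coef, Slot.tgt]
  rw [hw, eig_mul (eig_mul (eig_pow hmix _) (eig_pow hx _)) (eig_pow hy _)]
  simp

theorem slotOf_indep {r r' : Fin 3} (h : r ≠ r') : (slotOf r).Indep (slotOf r') := by
  fin_cases r <;> fin_cases r' <;> first | exact absurd rfl h | rfl

/-- The lowered vector. -/
def vec (k : ℕ × ℕ × ℕ) (i j l : ℕ) : Pol :=
  ((slotOf 0).triple.F ^ i) (((slotOf 1).triple.F ^ j) (((slotOf 2).triple.F ^ l) (hw k)))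

theorem F_pow_comm {r r' : Fin 3} (h : r ≠ r') (m : Fin 3) (n : ℕ) (p : Pol) :
    (slotOf r).der m (((slotOf r').triple.F ^ n) p) =
      ((slotOf r').triple.F ^ n) ((slotOf r).der m p) := by
  induction n with
  | zero => rfl
  | succ n ih =>
    simp only [pow_succ', Module.End.mul_apply]
    rw [← ih]
    exact Slot.der_comm (slotOf_indep h) m 1 _

theorem cas_F_pow (r r' : Fin 3) (n : ℕ) (p : Pol) :
    (slotOf r).triple.cas (((slotOf r').triple.F ^ n) p) =
      ((slotOf r').triple.F ^ n) ((slotOf r).triple.cas p) := by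
  refine Triple.iterate_commute (fun v => ?_) n p
  rcases eq_or_ne r r' with rfl | h
  · exact Triple.cas_F _ v
  · exact Slot.cas_commute (slotOf_indep h) 1 v

theorem vec_eq (k : ℕ × ℕ × ℕ) (i j l : ℕ) : vec k i j l = ((slotOf 0).triple.F ^ i)
    (((slotOf 1).triple.F ^ j) (((slotOf 2).triple.F ^ l) (hw k))) := rfl

/-- The three Casimir values. -/
theorem vec_cas (k : ℕ × ℕ × ℕ) (r : Fin 3) (i j l : ℕ) :
    (slotOf r).triple.cas (vec k i j l) =
      ((label k r : ℂ) * (label k r + 2)) • vec k i j l := by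
  have e : (slotOf r).triple.cas (hw k) = ((label k r : ℂ) * (label k r + 2)) • hw k := by
    simpa using Triple.cas_iterate (hw_H k r) (hw_E k r) 0
  rw [vec_eq, cas_F_pow, cas_F_pow, cas_F_pow, e, map_smul, map_smul, map_smul]

theorem vec_cas_right (k : ℕ × ℕ × ℕ) (f : Fin 2) (i j l : ℕ) :
    (Slot.R f).triple.cas (vec k i j l) =
      ((label k f.castSucc : ℂ) * (label k f.castSucc + 2)) • vec k i j l := by
  rw [← Slot.cas_left_eq]
  fin_cases f
  · exact vec_cas k 0 i j l
  · exact vec_cas k 1 i j l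

theorem hw_top (k : ℕ × ℕ × ℕ) (r : Fin 3) :
    ((slotOf r).triple.F ^ (label k r + 1)) (hw k) = 0 := by
  obtain ⟨N, hN⟩ := diter_eventually (slotOf r) (hw k)
  exact Triple.iterate_top (hw_H k r) (hw_E k r) (N := N) fun m hm => diter_mono hN hm.le

theorem vec_H (k : ℕ × ℕ × ℕ) (r : Fin 3) (i j l : ℕ) :
    (slotOf r).der 2 (vec k i j l) =
      ((label k r : ℂ) - 2 * ((![i, j, l] r : ℕ) : ℂ)) • vec k i j l := by
  fin_cases r
  · show (slotOf 0).triple.H (vec k i j l) = _
    refine Triple.H_iterate (T := (slotOf 0).triple) ?_ i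
    show (slotOf 0).der 2 _ = _
    rw [F_pow_comm (r := 0) (r' := 1) (by decide), F_pow_comm (r := 0) (r' := 2) (by decide)]
    show (((slotOf 1).triple.F ^ j) (((slotOf 2).triple.F ^ l) ((slotOf 0).triple.H (hw k)))) = _
    rw [hw_H, map_smul, map_smul]
    rfl
  · show (slotOf 1).der 2 _ = _
    rw [vec_eq, F_pow_comm (r := 1) (r' := 0) (by decide)]
    show ((slotOf 0).triple.F ^ i) ((slotOf 1).triple.H _) = _
    rw [Triple.H_iterate (T := (slotOf 1).triple) (c := (label k 1 : ℂ)) ?_ j, map_smul]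
    · rfl
    · show (slotOf 1).der 2 _ = _
      rw [F_pow_comm (r := 1) (r' := 2) (by decide)]
      show ((slotOf 2).triple.F ^ l) ((slotOf 1).triple.H (hw k)) = _
      rw [hw_H, map_smul]
  · show (slotOf 2).der 2 _ = _
    rw [vec_eq, F_pow_comm (r := 2) (r' := 0) (by decide), F_pow_comm (r := 2) (r' := 1) (by decide)]
    show ((slotOf 0).triple.F ^ i) (((slotOf 1).triple.F ^ j) ((slotOf 2).triple.H _)) = _
    rw [Triple.H_iterate (T := (slotOf 2).triple) (hw_H k 2) l, map_smul, map_smul]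
    rfl

end

end Vale.Agent.P225.Sphere
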