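import Vale.Agent.P225.Sphere.Inner
import Vale.Agent.P225.Sphere.Vectors

/-!
One factor: the spans of the lowered monomials of the first row, and the fact that together they
give every polynomial function on the sphere.
-/

namespace Vale.Agent.P225.Sphere

open MvPolynomial

noncomputable section

/-- A monomial of degree `a` in the first row. -/
def mono (f : Fin 2) (a p : ℕ) : Pol := X (f, 0, 0) ^ (a - p) * X (f, 0, 1) ^ p

/-- A lowered monomial. -/
def gen (f : Fin 2) (a i p : ℕ) : Pol := ((Slot.L f).triple.F ^ i) (mono f a p)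

theorem gen_zero (f : Fin 2) (a p : ℕ) : gen f a 0 p = mono f a p := rfl

theorem F_gen (f : Fin 2) (a i p : ℕ) : (Slot.L f).der 1 (gen f a i p) = gen f a (i + 1) p := by
  rw [gen, gen, pow_succ', Module.End.mul_apply]
  rfl

theorem mono_HL (f : Fin 2) {a p : ℕ} (h : p ≤ a) :
    (Slot.L f).triple.H (mono f a p) = (a : ℂ) • mono f a p := by
  show (Slot.L f).der 2 _ = _
  have h0 : ∀ j, (Slot.L f).der 2 (X (f, 0, j)) = (1 : ℂ) • X (f, 0, j) := fun j => by
    simp [Slot.der_X, Slot.img, Slot.act, Slot.get, Slot.put, Slot.coef, Slot.tgt]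
  rw [mono, eig_mul (eig_pow (h0 0) _) (eig_pow (h0 1) _)]
  congr 1
  push_cast [h]
  ring

theorem mono_EL (f : Fin 2) (a p : ℕ) : (Slot.L f).triple.E (mono f a p) = 0 := by
  show (Slot.L f).der 0 _ = _
  have h0 : ∀ j, (Slot.L f).der 0 (X (f, 0, j)) = (0 : ℂ) • X (f, 0, j) := fun j => by
    simp [Slot.der_X, Slot.img, Slot.act, Slot.get, Slot.put, Slot.coef, Slot.tgt]
  rw [mono, eig_mul (eig_pow (h0 0) _) (eig_pow (h0 1) _)]
  simp

theorem gen_eq_zero (f : Fin 2) {a i p : ℕ} (h : p ≤ a) (hi : a < i) : gen f a i p = 0 := by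
  obtain ⟨N, hN⟩ := diter_eventually (Slot.L f) (mono f a p)
  have h0 := Triple.iterate_top (mono_HL f h) (mono_EL f a p) (N := N)
    fun m hm => diter_mono hN hm.le
  obtain ⟨r, rfl⟩ := Nat.exists_eq_add_of_le (Nat.succ_le_of_lt hi)
  rw [gen, show a.succ + r = r + (a + 1) by omega, pow_add, Module.End.mul_apply, h0, map_zero]

/-- The span of one level of one factor. -/
def M1 (f : Fin 2) (a : ℕ) : Submodule ℂ Pol :=
  Submodule.span ℂ (Set.range fun ip : Fin (a + 1) × Fin (a + 1) => gen f a ip.1 ip.2)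

theorem gen_mem (f : Fin 2) {a p : ℕ} (h : p ≤ a) (i : ℕ) : gen f a i p ∈ M1 f a := by
  rcases le_or_gt i a with hi | hi
  · exact Submodule.subset_span ⟨(⟨i, by omega⟩, ⟨p, by omega⟩), rfl⟩
  · rw [gen_eq_zero f h hi]; exact zero_mem _

theorem M1_L (f : Fin 2) (a : ℕ) {m : Pol} (h : m ∈ M1 f a) : (Slot.L f).der 1 m ∈ M1 f a := by
  induction h using Submodule.span_induction with
  | mem x hx =>
    obtain ⟨⟨i, p⟩, rfl⟩ := hx
    rw [F_gen]
    exact gen_mem f (by omega) _
  | zero => simp
  | add x y _ _ hx hy => rw [map_add]; exact add_mem hx hy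
  | smul c x _ hx => rw [Derivation.map_smul]; exact Submodule.smul_mem _ c hx

theorem F_mono (f : Fin 2) (a p : ℕ) :
    (Slot.R f).der 1 (mono f a p) = ((a - p : ℕ) : ℂ) • mono f a (p + 1) := by
  have h0 : (Slot.R f).der 1 (X (f, 0, 0)) = X (f, 0, 1) := by
    simp [Slot.der_X, Slot.img, Slot.act, Slot.get, Slot.put, Slot.coef, Slot.tgt]
  have h1 : (Slot.R f).der 1 (X (f, 0, 1)) = 0 := by
    simp [Slot.der_X, Slot.img, Slot.act, Slot.get, Slot.put, Slot.coef, Slot.tgt]
  rw [mono, mono, Derivation.leibniz, Derivation.leibniz_pow, Derivation.leibniz_pow, h0, h1,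
    show a - (p + 1) = a - p - 1 by omega, smul_eq_C_mul, map_natCast]
  simp [pow_succ]
  ring

theorem M1_R (f : Fin 2) (a : ℕ) {m : Pol} (h : m ∈ M1 f a) : (Slot.R f).der 1 m ∈ M1 f a := by
  induction h using Submodule.span_induction with
  | mem x hx =>
    obtain ⟨⟨i, p⟩, rfl⟩ := hx
    have e : (Slot.R f).der 1 (gen f a i p) = ((Slot.L f).triple.F ^ (i : ℕ))
        ((Slot.R f).der 1 (mono f a p)) := by
      rw [gen]
      generalize (i : ℕ) = n
      induction n with
      | zero => rfl
      | succ n ih =>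
        simp only [pow_succ', Module.End.mul_apply]
        rw [← ih]
        exact Slot.der_comm (s := Slot.R f) (t := Slot.L f) rfl 1 1 _
    rw [e, F_mono, map_smul]
    rcases Nat.lt_or_ge (p : ℕ) a with hp | hp
    · exact Submodule.smul_mem _ _ (gen_mem f (p := p + 1) hp i)
    · simp [show a - (p : ℕ) = 0 by omega]
  | zero => simp
  | add x y _ _ hx hy => rw [map_add]; exact add_mem hx hy
  | smul c x _ hx => rw [Derivation.map_smul]; exact Submodule.smul_mem _ c hx

/-- The levels next to `a`, and the functions vanishing on the group. -/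
def nb (f : Fin 2) (a : ℕ) : Submodule ℂ Pol := M1 f (a + 1) ⊔ M1 f (a - 1) ⊔ K

theorem nb_der (f : Fin 2) (a : ℕ) {s : Slot} (hs : s = .L f ∨ s = .R f) {m : Pol}
    (h : m ∈ nb f a) : s.der 1 m ∈ nb f a := by
  unfold nb at h ⊢
  obtain ⟨y, hy, k, hk, rfl⟩ := Submodule.mem_sup.1 h
  obtain ⟨u, hu, w, hw, rfl⟩ := Submodule.mem_sup.1 hy
  rw [map_add, map_add]
  have hK := s.der_mem_K 1 hk
  rcases hs with rfl | rfl
  · exact Submodule.add_mem_sup (Submodule.add_mem_sup (M1_L f _ hu) (M1_L f _ hw)) hK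
  · exact Submodule.add_mem_sup (Submodule.add_mem_sup (M1_R f _ hu) (M1_R f _ hw)) hK

theorem gen_top_mul_X (f : Fin 2) (a : ℕ) (i j : Fin 2) :
    mono f a 0 * X (f, i, j) ∈ nb f a := by
  have hL : ∀ n, gen f (a + 1) 1 n = (Slot.L f).der 1 (mono f (a + 1) n) := fun n => rfl
  have d00 : (Slot.L f).der 1 (X (f, 0, 0)) = X (f, 1, 0) := by
    simp [Slot.der_X, Slot.img, Slot.act, Slot.get, Slot.put, Slot.coef, Slot.tgt]
  have d01 : (Slot.L f).der 1 (X (f, 0, 1)) = X (f, 1, 1) := by
    simp [Slot.der_X, Slot.img, Slot.act, Slot.get, Slot.put, Slot.coef, Slot.tgt]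
  have big : ∀ {m}, m ∈ M1 f (a + 1) → m ∈ nb f a := fun h =>
    Submodule.mem_sup_left (Submodule.mem_sup_left h)
  have b0 := gen_mem f (a := a + 1) (p := 0) (by omega) 0
  have b1 := gen_mem f (a := a + 1) (p := 1) (by omega) 0
  have c0 := gen_mem f (a := a + 1) (p := 0) (by omega) 1
  have c1 := gen_mem f (a := a + 1) (p := 1) (by omega) 1
  rw [gen_zero] at b0 b1
  fin_cases i <;> fin_cases j
  · exact big (by simpa [mono, pow_succ] using b0)
  · exact big (by simpa [mono, pow_succ] using b1)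
  · refine big ?_
    have e : mono f a 0 * X (f, 1, 0) = ((a + 1 : ℂ))⁻¹ • gen f (a + 1) 1 0 := by
      have : gen f (a + 1) 1 0 = (a + 1 : ℂ) • (mono f a 0 * X (f, 1, 0)) := by
        rw [hL, mono, mono, smul_eq_C_mul]
        simp [d00]
      rw [this, smul_smul, inv_mul_cancel₀, one_smul]
      exact_mod_cast Nat.succ_ne_zero a
    simp only [Fin.mk_one, Fin.zero_eta]
    rw [e]
    exact Submodule.smul_mem _ _ c0
  · have e : (a + 1 : ℂ) • (mono f a 0 * X (f, 1, 1)) - gen f (a + 1) 1 1 -
        (a : ℂ) • mono f (a - 1) 0 ∈ K := by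
      rcases a with _ | n
      · have : gen f (0 + 1) 1 1 = X (f, 1, 1) := by rw [hL]; simp [mono, d01]
        rw [this]
        simp [mono]
      · have : gen f (n + 1 + 1) 1 1 = mono f (n + 1) 0 * X (f, 1, 1) +
            ((n : ℂ) + 1) • (mono f n 0 * X (f, 1, 0) * X (f, 0, 1)) := by
          rw [hL, mono, mono, mono, smul_eq_C_mul]
          rw [show n + 1 + 1 - 1 = n + 1 from rfl]
          simp only [pow_one, pow_zero, mul_one, Nat.sub_zero, Derivation.leibniz,
            Derivation.leibniz_pow, d00, d01, smul_eq_mul, nsmul_eq_mul, add_tsub_cancel_right,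
            map_add, map_natCast, map_one]
          push_cast
          ring
        have hk := K.smul_mem ((n : ℂ) + 1) (mul_mem_K (det_sub_one_mem_K f) (mono f n 0))
        convert hk using 1
        rw [this]
        simp only [add_tsub_cancel_right, mono, Nat.sub_zero, pow_zero, mul_one,
          smul_eq_C_mul, map_add, map_one, map_natCast, Nat.cast_add, Nat.cast_one]
        ring
    simp only [Fin.mk_one]
    have h2 : (a + 1 : ℂ) • (mono f a 0 * X (f, 1, 1)) ∈ nb f a := by
      have hs : (a : ℂ) • mono f (a - 1) 0 ∈ nb f a := Submodule.smul_mem _ _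
        (Submodule.mem_sup_left (Submodule.mem_sup_right (by
          simpa [gen_zero] using gen_mem f (a := a - 1) (p := 0) (by omega) 0)))
      have := add_mem (add_mem (Submodule.mem_sup_right (S := M1 f (a + 1) ⊔ M1 f (a - 1)) e)
        (big c1)) hs
      have e3 : ∀ x g t : Pol, x - g - t + g + t = x := fun x g t => by abel
      rwa [e3] at this
    have hne : (a + 1 : ℂ) ≠ 0 := by exact_mod_cast Nat.succ_ne_zero a
    simpa [smul_smul, hne] using Submodule.smul_mem (nb f a) (a + 1 : ℂ)⁻¹ h2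

/-- Multiplication by an entry moves a level to the neighbouring ones. -/
theorem M1_mul_X (f : Fin 2) (a : ℕ) {m : Pol} (h : m ∈ M1 f a) (i j : Fin 2) :
    m * X (f, i, j) ∈ nb f a := by
  have step : ∀ s : Slot, (s = .L f ∨ s = .R f) → ∀ {m : Pol},
      (∀ i j, m * X (f, i, j) ∈ nb f a) → ∀ i j, s.der 1 m * X (f, i, j) ∈ nb f a := by
    intro s hs m hm i j
    have e : s.der 1 m * X (f, i, j) =
        s.der 1 (m * X (f, i, j)) - m * s.der 1 (X (f, i, j)) := by
      rw [Derivation.leibniz, smul_eq_mul, smul_eq_mul]; ring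
    rw [e]
    refine sub_mem (nb_der f a hs (hm i j)) ?_
    rw [Slot.der_X, Slot.img]
    split_ifs
    · rw [mul_smul_comm]
      refine Submodule.smul_mem _ _ ?_
      rcases hs with rfl | rfl <;> exact hm _ _
    · simp
  have hp : ∀ p ≤ a, ∀ i j, mono f a p * X (f, i, j) ∈ nb f a := by
    intro p
    induction p with
    | zero => intro _; exact gen_top_mul_X f a
    | succ p ih =>
      intro hp i j
      have e := step (.R f) (Or.inr rfl) (ih (by omega)) i j
      rw [F_mono, smul_mul_assoc] at e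
      have hne : ((a - p : ℕ) : ℂ) ≠ 0 := by exact_mod_cast (show a - p ≠ 0 by omega)
      simpa [smul_smul, hne] using Submodule.smul_mem (nb f a) ((a - p : ℕ) : ℂ)⁻¹ e
  have hg : ∀ (p : Fin (a + 1)) (n : ℕ), ∀ i j, gen f a n p * X (f, i, j) ∈ nb f a := by
    intro p n
    induction n with
    | zero => exact hp p (by omega)
    | succ n ih => intro i j; rw [← F_gen]; exact step (.L f) (Or.inl rfl) ih i j
  induction h using Submodule.span_induction with
  | mem x hx =>
    obtain ⟨⟨n, p⟩, rfl⟩ := hx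
    exact hg p n i j
  | zero => simp
  | add x y _ _ hx hy => rw [add_mul]; exact add_mem hx hy
  | smul c x _ hx => rw [smul_mul_assoc]; exact Submodule.smul_mem _ c hx

end

end Vale.Agent.P225.Sphere
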