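import Mathlib

/-!
Chains of lowered vectors of an `sl₂` triple of linear maps (no finite-dimensionality assumed).
-/

namespace Vale.Agent.P225.Sphere

variable {V : Type*} [AddCommGroup V] [Module ℂ V]

/-- An `sl₂` triple of linear maps. -/
structure Triple (V : Type*) [AddCommGroup V] [Module ℂ V] where
  E : V →ₗ[ℂ] V
  F : V →ₗ[ℂ] V
  H : V →ₗ[ℂ] V
  ef : ∀ v, E (F v) - F (E v) = H v
  he : ∀ v, H (E v) - E (H v) = (2 : ℂ) • E v
  hf : ∀ v, H (F v) - F (H v) = -((2 : ℂ) • F v)

namespace Triple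

variable (T : Triple V)

/-- The Casimir operator. -/
def cas : V →ₗ[ℂ] V := T.H ∘ₗ T.H + (2 : ℂ) • T.H + (4 : ℂ) • (T.F ∘ₗ T.E)

theorem cas_apply (v : V) : T.cas v = T.H (T.H v) + (2 : ℂ) • T.H v + (4 : ℂ) • T.F (T.E v) := rfl

theorem cas_F (v : V) : T.cas (T.F v) = T.F (T.cas v) := by
  have e1 : T.H (T.F v) = T.F (T.H v) - (2 : ℂ) • T.F v := by
    rw [sub_eq_add_neg, ← T.hf v, add_sub_cancel]
  have e2 : T.E (T.F v) = T.F (T.E v) + T.H v := by rw [← T.ef v, add_sub_cancel]
  have e3 : T.H (T.F (T.H v)) = T.F (T.H (T.H v)) - (2 : ℂ) • T.F (T.H v) := by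
    rw [sub_eq_add_neg, ← T.hf (T.H v), add_sub_cancel]
  rw [cas_apply, cas_apply, e1, e2]
  simp only [map_add, map_sub, map_smul, e1, e3]
  module

variable {T}

theorem H_iterate {v : V} {c : ℂ} (h : T.H v = c • v) (k : ℕ) :
    T.H ((T.F ^ k) v) = (c - 2 * k) • (T.F ^ k) v := by
  induction k with
  | zero => simpa using h
  | succ k ih =>
    have e : T.H (T.F ((T.F ^ k) v)) = T.F (T.H ((T.F ^ k) v)) - (2 : ℂ) • T.F ((T.F ^ k) v) := by
      rw [sub_eq_add_neg, ← T.hf ((T.F ^ k) v), add_sub_cancel]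
    rw [pow_succ', Module.End.mul_apply, e, ih, map_smul]
    push_cast
    module

theorem E_iterate {v : V} {c : ℂ} (h : T.H v = c • v) (he : T.E v = 0) (k : ℕ) :
    T.E ((T.F ^ (k + 1)) v) = ((k + 1 : ℂ) * (c - k)) • (T.F ^ k) v := by
  induction k with
  | zero =>
    have := T.ef v
    rw [he, map_zero, sub_zero, h] at this
    simpa using this
  | succ k ih =>
    have e : T.E (T.F ((T.F ^ (k + 1)) v)) =
        T.F (T.E ((T.F ^ (k + 1)) v)) + T.H ((T.F ^ (k + 1)) v) := by
      rw [← T.ef ((T.F ^ (k + 1)) v), add_sub_cancel]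
    rw [pow_succ' T.F (k + 1), Module.End.mul_apply, e, ih, H_iterate h, map_smul,
      pow_succ' T.F k, Module.End.mul_apply]
    push_cast
    module

/-- The chain of a highest vector of weight `n` does not vanish up to `n`. -/
theorem iterate_ne {v : V} {n : ℕ} (h : T.H v = (n : ℂ) • v) (he : T.E v = 0) (hv : v ≠ 0) :
    ∀ k ≤ n, (T.F ^ k) v ≠ 0 := by
  intro k
  induction k with
  | zero => intro _; simpa using hv
  | succ k ih =>
    intro hk h0
    have e := E_iterate h he k
    rw [h0, map_zero] at e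
    have hc : ((k + 1 : ℂ) * (n - k)) ≠ 0 := by
      refine mul_ne_zero ?_ (sub_ne_zero.2 ?_)
      · exact_mod_cast Nat.succ_ne_zero k
      · exact_mod_cast (show n ≠ k by omega)
    exact ih (by omega) ((smul_eq_zero.1 e.symm).resolve_left hc)

/-- With bounded weights the chain stops after `n` steps. -/
theorem iterate_top {v : V} {n N : ℕ} (h : T.H v = (n : ℂ) • v) (he : T.E v = 0)
    (hN : ∀ k, N < k → (T.F ^ k) v = 0) : (T.F ^ (n + 1)) v = 0 := by
  by_contra hw
  have step : ∀ j, (T.F ^ (n + 1 + j)) v ≠ 0 := by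
    intro j
    induction j with
    | zero => exact hw
    | succ j ih =>
      intro h0
      have e := E_iterate h he (n + 1 + j)
      rw [show n + 1 + j + 1 = n + 1 + (j + 1) by omega, h0, map_zero] at e
      have hc : (((n + 1 + j : ℕ) : ℂ) + 1) * ((n : ℂ) - ((n + 1 + j : ℕ) : ℂ)) ≠ 0 := by
        refine mul_ne_zero ?_ (sub_ne_zero.2 ?_)
        · exact_mod_cast Nat.succ_ne_zero (n + 1 + j)
        · exact_mod_cast (show n ≠ n + 1 + j by omega)
      exact ih ((smul_eq_zero.1 e.symm).resolve_left hc)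
  exact step (N + 1) (hN _ (by omega))

theorem cas_iterate {v : V} {n : ℕ} (h : T.H v = (n : ℂ) • v) (he : T.E v = 0) (k : ℕ) :
    T.cas ((T.F ^ k) v) = ((n : ℂ) * (n + 2)) • (T.F ^ k) v := by
  induction k with
  | zero =>
    simp only [pow_zero, Module.End.one_apply, cas_apply, he, map_zero, smul_zero, add_zero, h,
      map_smul, smul_smul]
    module
  | succ k ih => rw [pow_succ', Module.End.mul_apply, cas_F, ih, map_smul]

theorem iterate_commute {A : V →ₗ[ℂ] V} (hA : ∀ v, A (T.F v) = T.F (A v)) (k : ℕ) (v : V) :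
    A ((T.F ^ k) v) = (T.F ^ k) (A v) := by
  induction k with
  | zero => rfl
  | succ k ih => rw [pow_succ', Module.End.mul_apply, Module.End.mul_apply, hA, ih]

end Triple

end Vale.Agent.P225.Sphere
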